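/-!
# Row 51 (S0070): blueprint, part 3 and `Narrow` (independent of the geometric API)

Statements: `Crest/Agent/R51/Stmts.lean`; definitions: `Defs.lean`.  A task proves
`theorem name (hyps) : XStmt` in `Crest/Agent/R51/<File>.lean`, namespace `Crest.Agent.R51`,
header as in `Stmts.lean`.  Constants have slack; if one is really too small tell helper88.
Parts 0-2 are in `Blueprint2.lean`.

Notation: `γ^ε(c,w) = mG … c ε w`, `γ(c,w) = mG2 …`, `M^ε(p,ρ) = mP P Y p ε ρ / s`,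
`M(p,ρ) = mP2 P Y p ρ / s`, `M_c` the same for `xc X Y (κ c)`, `n = 1/U^A`.
All these are monotone in the radius and nonnegative; `max (γ^+, γ^-) ≤ γ ≤ γ^+ + γ^-`, same
for `M`; `γ ≤ U`, `M ≤ 1`.

## `Bal`: `theorem bal : BalStmt`
One-sided H1: `a b ≤ U^5 max (M_c^σ(wρ), n)` for `a = γ^{ε₁}(c,w)`, `b = M^{ε₂}(p,ρ)`,
`σ = -(ε₁ε₂)`.  If `a ≤ n` or `b ≤ n` it is trivial (`a ≤ U`, `b ≤ 1`).  Else take the least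
`i ≥ 1` with `1/U^i < a` (`i ≤ A`; `1/U^i ≥ a/U^2`), same `j` for `b`, and the witness `(w_i,ρ_j)`:
`w_i < w`, `ρ_j < ρ` by monotonicity, so `M_c^σ(wρ) ≥ M_c^σ(w_iρ_j) ≥ U^{-i-j-1} ≥ ab/U^5`.
One-sided H2: if `a, b < 1/U^2` take the greatest `i ∈ [1,A]` with `a < 1/U^(i+1)`; then
`w < w_i`, `1/U^i ≤ U^2 max(a,n)`; so `M_c^σ(wρ) ≤ U^5 max(a,n) max(b,n)`.
`h1`: expand `(a⁺+a⁻)(b⁺+b⁻)`.  `h2`: `M_c ≤ M_c^+ + M_c^-`.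
`balY`: take the witnesses at level `i = 3` (any `j`, e.g. 1) for `ε₁ = ±1`, `w = min` of the two
radii, attained at sign `t`: `γ^t(w) ≥ U^{-4}`, `γ^{-t}(w) ≤ U^{-3}`.  H1 for `(t,-ε)` and H2 for
`(-t, ε)` have the same `σ`, giving `M^{-ε} ≤ U^11 max(M^ε,n)`.  `balG` symmetric (level `j = 3`).
`box`: greatest `i ∈ [1,A]` with `M ≤ 1/U^i`, so `1/U^i ≤ U max(M,n)`.

## `Anchor`: `theorem anchor : AnchorStmt`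
`m₀ = 1/U^15`.  Groups `g c = ⌊(∑_{c' ∈ C, κ c' < κ c} gam c')/(m₀/2)⌋₊ ≤ 2U/m₀`,
`hh p = ⌊#{q ∈ P | Y q < Y p}/(m₀ s/2)⌋₊ ≤ 2/m₀`.  Hull masses: if `g c₁ = g c₂` then the weight of
`{c' ∈ C | κ c₁ ≤ κ c' ≤ κ c₂}` is `≤ m₀/2 + atom ≤ m₀` (κ injective), and if `hh p₁ = hh p₂` then
`#{q | Y p₁ ≤ Y q ≤ Y p₂} ≤ m₀ s/2 + ties ≤ m₀ s`.  Pigeonhole over the `≤ 9 U^31` pairs
`(g,hh)`: a pair with weight `≥ s/K₁`, `K₁ = 9 U^32 ≤ U^36`.  `C_p = {c ∈ C | Gd p c, g c = g₀}`,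
`P₁ = {p, hh p = h₀, gam(C_p) ≥ 1/(2K₁)}`, `#P₁ ≥ s/(2K₁)` (each `gam(C_p) ≤ m₀ ≤ 1`).
`Lo_p = {c ∈ C_p | gam{c' ∈ C_p, κ c' < κ c} ≤ gam(C_p)/3}` has weight `≥ gam(C_p)/3` (look at the
least element of `C_p \ Lo_p`), `Hi_p` symmetric.  Average over `(e₀,e₁)` in the group with weight
`gam e₀ * gam e₁` (total `≤ 1`): `P₂ = {p ∈ P₁ | e₀ ∈ Lo_p, e₁ ∈ Hi_p}`, `#P₂ ≥ s/(72 K₁^3)`.
For `p ∈ P₂` the weight of `C_p ∩ [κ e₀, κ e₁]` is `≥ 1/(6K₁) > atom`, so `κ e₀ < κ e₁`.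
`ρ₀ = max Y - min Y` on `P₂`, positive since `#P₂ > ties`.  `Ω` = points of `P₂` whose cell
`⌊16 (Y - min)/ρ₀⌋ ∈ [0,16]` contains `≥ #P₂/34` points of `P₂`; `#Ω ≥ #P₂/2`.
`halfY`: for `q ∈ P₂` one of `[Y q, Y q ± ρ₀/2]` lies in the hull, so `M^ε(q,ρ₀/2) ≤ m₀`, then
`balY` (with `Gd q e₀`): `2 U^11 max(m₀,n) < 1/U^2`.  `halfG` the same with `balG`.

## `Profile`: `theorem profile : ProfileStmt`
Write `γ_c(r) = γ(c, rΔ)`, `M_q(r) = M(q, rρ₀)`, `V = 8U^10 ≤ U^13`, for `q ∈ Ω`, `Gd q c`,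
`κ c ∈ [κ e₀, κ e₁]`, `r, r' ≥ 0`:
(S) `γ_c(r') M_q(r) ≤ V max(M_q(2rr'), n)`: `h1`, then `h2` with `w = Δ/2`, `ρ = 2rr'ρ₀` if
`M_q(2rr') < 1/U^2` (use `halfG`, `max(γ_c(1/2),n) ≤ 1`); otherwise `γ M ≤ U ≤ U^3 M_q(2rr')`.
(S') `γ_c(r') M_q(r) ≤ V max(γ_c(2rr'), n)`: same with `w = 2rr'Δ`, `ρ = ρ₀/2` (`halfY`; in the
other case `γ M ≤ U ≤ U^3 γ_c(2rr')`).
Lower bounds `M_q(1) ≥ M_q(1/16) ≥ U^{-130}`, `γ_c(1) ≥ U^{-40}` (from `wt`).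
`dbl`: (S') with `r = 1/16`, `c = e₀`: `f(8r) ≤ K₃ f(r)`, `K₃ = U^143`.  `upY`: (S'), `c = e₀`,
`r' = 1`.  `loY`: `f r ≤ K₃ f(r/8)` and (S) with `r = 1`.  `upG`: (S) with `r = 1` then `upY`.
`loG`: `f r ≤ K₃ f(r/8) ≤ K₃ V U^130 max(M_q(r/4),n)` then (S') with `r' = 1` for `c`.
`sm`: `f r ≤ K₃ V U^130 max(M_q(r/4),n)` and (S') for `e₀`.  `Ω` is nonempty by `big`.

## `Analytic`: `theorem analytic (hb : BalStmt) (ha : AnchorStmt) (hp : ProfileStmt)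
   (hj : ProjStmt) : ∃ C₁, AnStmt C₁`
`C₃` from `hj`, `C₁ = 500 (20 C₃ + 16)`, `K₀ = U^500`, `f` the profile (monotone, `≥ n`,
`f 1 ≥ U^{-40}`, `f r = n` for small `r > 0` because κ is injective on the finite set `C` and
`gam ≤ n`).  For `m` with `K₀^{-m} ≥ n`: `k = Nat.find` with `f(8^{-k}) ≤ K₀^{-m}`, `k ≥ 1`, and
`f(8^{-k}) ≥ K₀^{-m-1}` by `dbl`.  `r₀` from `m = 10C₃+1`, `θ₀` from `m = 20C₃+15`,
`θ = min θ₀ (1/U^b₀)`; the dimension hypothesis at `(q,e₀)`: `balG` gives `γ(e₀,w) < U^{-40} ≤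
γ(e₀,Δ)` so `w < Δ` and `f(1/U^b₀) ≥ U^{-a₀}`; hence `f θ ≥ U^{-a₀}`, `f θ ≤ K₀^{-(20C₃+15)}`.
`δ = r₀θ^8/512`, `f δ ≥ f(r₀) f(θ^8)/K₀^4`, `f(θ^8) ≥ U^{-8a₀}/K₀^7`, so `f δ > K₀^2 n`.
`D = K₀^3/f δ`, `K = K₀^10`.  Apply `hj` to `Ω`, `X' = xc X Y (κ e₀)/(Δρ₀)`, `Y' = Y/ρ₀`,
`κ' = (κ - κ e₀)/Δ`, `C' = {c ∈ C | κ e₀ ≤ κ c ≤ κ e₁, ∃ q ∈ Ω, Gd q c}`, `τ = gam`,
`FY = F = K₀ f`; note `xc X' Y' (κ' c) = xc X Y (κ c)/(Δρ₀)` and `X' + Y' = xc X Y (κ e₁)/(Δρ₀)`.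
Covering lemma: if every `q ∈ Ω₁ ⊆ P` has `mP2 P F q δ ≥ m s` then
`#(Ω₁.image ⌊F/δ⌋) * m ≤ 3` (pick a point per cell; its ball lies in 3 adjacent cells).
`M_q(δ) ≥ f δ/K₀` (`loY`), `M_c(q,δΔρ₀) ≥ f δ/K₀^2` (`h1` with `w = δΔ`, `ρ = ρ₀`, `loG`).
`cell`: `AnTwo.box` for `(q,e₀)` with `M_q(δ) ≤ K₀ f δ` and `M_{e₀}(q,δΔρ₀) ≤ 2U^5 K₀ f(2δ)`
(`h2` with `w = Δ/2`, `ρ = 2δρ₀`).  `FY(200δ) ≤ K₀^4 f δ`;
`FY(6w) F(θ) F(2θ^8/w) ≤ K₀^4 f(12θ^8) f θ ≤ K₀^6 f(θ^8) f θ`.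

## `Cover`: `theorem cover : CoverStmt`
Cells as reals: `i p = (⌊X p/δ⌋ : ℝ)`, `j p = (⌊Y p/δ⌋ : ℝ)`; a pair-cell has `≤ K s/D^2` points.
1. `Ω₁` = points whose `j`-cell has `≥ s/(2KD)` points of `Ω`; `#Ω₁ ≥ s/(2K)`.  `G₁ = Ω₁.image (i,j)`,
`#G₁ ≥ D^2/(2K^2)`, sums `i+j ∈ S₁ - {0,1}`, so `S = G₁.image (+)` has `≤ 2D` elements.
`Crest.Agent.R34.sp_bsg` (file `R34/SumProdBSG`, `F = ℝ`, `ξ = 1`, `N = 2D`, `K := 8K^2`) gives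
`A', A₀` with `#A' ≥ D/(24K^2)`, `#A₀ ≥ D/(16K^2)`, `#(A'+A₀) ≤ K^c D`.  Pluennecke
(`Finset.pluennecke_ruzsa_inequality_nsmul_sub_nsmul_add`): `#(21•A₀ - 20•A₀)` and `#(A₀+A₀)` are
`≤ K^c D`.  `Ω₂ = {p ∈ Ω₁ | j p ∈ A₀}`, `#Ω₂ ≥ s/(32K^3)`.
2. `∑_{σ ∈ S} #{p ∈ Ω₂ | σ - i p ∈ A₀} ≥ ∑_p deg(i p)`, `deg a = #{j q | q ∈ Ω₂, i q = a} ≥
#{q ∈ Ω₂ | i q = a} D^2/(K s)`; Cauchy-Schwarz over the `≤ D` values of `i`: some `σ₀` has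
`Ω' = {p ∈ Ω₂ | σ₀ - i p ∈ A₀}` of size `≥ #Ω₂^2/(2 K s)`.
3. `C' = {c | #{p ∈ Ω' | Gd p c} ≥ #Ω'/(2K^2)}` has weight `≥ 1/(2K)`.  For `c ∈ C'` the cells
`G_c` of these points number `≥ D^2/K^c`, and `a + ⌊κ b⌋ ∈ S_c - {0,1,2}` (`≤ 3D` values) for
`(a,b) ∈ G_c`; a popular value `σ_c` gives `A_c ⊆ A₀`, `#A_c ≥ D/K^c`, with `σ_c - ⌊κ b⌋ ∈ σ₀ - A₀`
for `b ∈ A_c`.  `Finset.ruzsa_covering_add`: `A₀ ⊆ T + (A_c - A_c)`.  With `H = A₀ - A₀` put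
`Cov x m M := ∃ T : Finset ℝ, #T ≤ M ∧ ∀ b ∈ A₀, ∃ t ∈ T, ∃ y ∈ m • H, |x b - t - y| ≤ m`.
So `Cov (κ c) 1 M₀`; `Cov` is closed under `+` (`m+m'`, `M M'`), `-`; `Lin` gives `Cov p 4 M₀^4`;
`p κ b = p t + p a - p a' + p e` gives `Cov (p κ c) 10 M₀^9`; so `w = pκc + qκc'` has
`Cov w 20 M₀^18`, `|w| ≤ 4`.  Hence `(Y a + w Y b)/δ` is within 25 of a set of size
`≤ M₀^18 #(A₀ + 20•H)`; Cauchy-Schwarz (`Crest.Agent.R34.sp_card_sq_le`) gives the collisions.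

## `Expand`: `theorem expand : ExpandStmt`
`t = θ^8`, `δ₁ = 3θ^6`, `Q = {u/v | u, v ∈ κ(C) - κ(C), |v| ≥ θ}`, `Q' = Q ∩ [-2δ₁, 1+2δ₁]`.
`0 ∈ Q'` because `F θ < τ(C)` forces two elements at distance `≥ θ` (even `> θ`).
Common bound: the quadruples with `|κc' - κc̃'| < θ` weigh `≤ τ(C)^2 F θ F(2t/w)` when `|p| ≥ w`
(given the other three, `κ c` lies in an interval of radius `t/w`; recentre at one of its points).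
Gap case: some `x = u/v ∈ Q'`, `ε ∈ {0,1}` with `|x' - (x+ε)/2| ≥ δ₁` for all `x' ∈ Q`: take
`p = 2v`, `q = u + εv`, `w = |v|`; a quadruple with `|κc' - κc̃'| ≥ θ` would give the element
`(κc - κc̃)/(κc̃' - κc')` of `Q` within `t/(2θ^2) < δ₁` of `q/p`.
Dense case: by induction every `z ∈ [0,1]` is within `2^{-n} + 2δ₁` of `Q'`, so within `3δ₁`.
Take `x_k = u_k/v_k ∈ Q'` near `7δ₁k`, `k < N = ⌊1/(7δ₁)⌋₊+1`; they are `δ₁`-separated.  For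
`(p,q,w) = (v_k,u_k,|v_k|)` a quadruple with `|κc' - κc̃'| ≥ θ` counts for at most one `k`
(`|x_k - x*| ≤ θ^6`), so for some `k` these weigh `≤ τ(C)^4/N ≤ 21θ^6 τ(C)^4`.

## `Proj`: `theorem proj (hc : CoverStmt) (he : ExpandStmt) : ProjStmt`
`Ω', C'` from `hc`, `τ₀ = τ(C') ∈ [1/(2K), K]`; `he` on `C'` gives `p q w` and `energy ≤ E`.
`W' = {(c,c') | τ×τ{(c̃,c̃') | |val - val~| ≤ θ^8} ≤ 2E/τ₀^2}` has weight `≥ τ₀^2/2` (Markov).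
Sum `coll ≥ #Ω'^4/(K^C₂ D)` over `W'`.  Quadruples `(a,b,a',b')` with `|Yb - Yb'| ≤ r₀`: at most
`#Ω'^2 (s FY r₀)(s FY(200δ))` for each value.  The others have `|Ya - Ya'| ≤ 6w` and the admissible
values lie in an interval of length `200δ/r₀ ≤ θ^8`, so weigh `≤ 2E/τ₀^2` inside `W'`; count them
by `#Ω'^3 s FY(6w)` against the first term of `E` and by `#Ω'^4` against the second.
Contradiction for `C₃ = 3C₂ + 20`.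

## `Narrow`: `theorem narrow : NarrowStmt`
For a block `β` let `b₁ ≤ b₂` be the least/largest `σ` in it, for a window `[i₁,i₂]` likewise,
`α_k` the largest `σ` of block `k`.  For `a < b₁`, `len_a[x,z] = kap a z - kap a x =
(z-x)/((x-a)(z-a))`.  The window is `a`-bad if `M len_a[i₁,i₂] > len_a[i₂,b₂]` (+bad) and
`M len_a[i₁,i₂] > len_a[b₁,i₁]` (-bad); then `len_a[b₁,b₂] < (2M+1) len_a[i₁,i₂]`, so at most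
`2M+1` windows of `β` are `a`-bad (hulls of distinct windows are disjoint, `kap a` is increasing).
+bad means `M(i₂-i₁)(b₂-a) > (b₂-i₂)(i₁-a)` and passes to larger `a < b₁`; -bad means
`M(i₂-i₁)(b₁-a) > (i₁-b₁)(i₂-a)` and passes to smaller `a`.  If the window of `i` is not
`α_k`-bad for any block `k < β`, all `j` with `σ j`-bad lie in one block (for `blk j < blk j'`:
+bad at `α_{blk j}`, and -bad there since `σ j' > α_{blk j}`); for the other `j` take `z` attaining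
`b₂` or `b₁`.  Count: `≤ n^2 (2M+1)` bad windows, `≤ m` edges each.
-/
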