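/-!
# Row 51 (S0070): blueprint, parts 0-2

Statements: `Stmts.lean`; definitions: `Defs.lean`; API (read it first!): `Geo.lean` (heights,
ranks, strips, `nu`), `Runs.lean` (runs, `root`, classes, hulls, quantiles, `slab_cut`,
`class_change`), `Tools.lean` (`move2`, cherry counting for `B2`).  Import `Crest.Agent.R51.Tools`.
`s = lam^2 d`, `π = nr I`, `σ i = sl v i`.  Tip: use `simp only [mem_filter]` / `convert` when
decidability instances differ.

## `Sweep`: `theorem sweep : SweepStmt`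
`rk θ p = #{q left of p | θ < slope q p} + #{r right of p | slope p r ≤ θ}` (`below_left_iff`,
`below_right_iff`).  Induct on the number of `q ∈ P \ {p}` with `slope p q ∈ (θ₁,θ₂]` (slopes from
`p` are distinct: `GP.slope_inj`).  If none: ranks agree, both counts vanish.  Else let `τ` be the
largest such slope, of the point `q`, and `θ'` the largest other such slope (or `θ₁`): use the
hypothesis on `(θ₁,θ']`; `rk θ₂ p = rk τ p`; the only candidate edge in `(θ',θ₂]` is `(q,p)` or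
`(p,q)`.  `q` left: `rk τ p + 1 = rk θ' p`, edge iff `rk τ p = j`.  `q` right:
`rk τ p = rk θ' p + 1 = rk τ q + 1` (`GP.rk_left`), edge iff `rk θ' p = j`.

## `Tokens`: `theorem tokens (hs : SweepStmt) : TokensStmt`
`E = edges P j`; slopes are injective on `E` (`rk_inj` gives the right ends, `slope_inj` the left).
`Lk e e' := e.2 = e'.1 ∧ σe < σe' ∧ no e'' ∈ E with an end at e.2 has σe < σe'' < σe'`; it is
functional and injective.  General lemma (induction on `#E`, remove the element of largest σ, which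
has no successor; if it has a predecessor with index `n₀`, shift indices `> n₀` by 2 and use
`n₀+1`, else use `max+2`): an injective `idx : E → ℤ` with `Lk e e' ↔ idx e' = idx e + 1`.
`I = image idx`, `v i = e.1` if `i = idx e`, else `e.2` if `i = idx e + 1`.  `wait`: if
`σe' < σf'` then `e'` is incident with `σf < σe' < σf'` (`f ≠ e'`).  `nr I ≤ #P`: `start ↦ left end`
is injective: for two unlinked out-edges `σe₁ < σe₂` at `p` take the incident edge `e*` of largest
slope `< σe₂`; an in-edge would be linked to `e₂`, and after an out-edge `e*` the sweep identity on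
`(σe*, σe₂]` (both indicators 0, since `rk = j+1` by `rk_left`) gives an in-edge in between.
`Lv`: for an edge inside `B` at time θ, `rk B θ R + 1 = #{p ∈ B | rk P θ p ≤ j}`
(`below_iff_rk_lt`); sum the sweep identity over `p ∈ B`.

## `Top`: `theorem top (ht : TokensStmt) (hi : IStarStmt) (hc : CoreStmt) : LevelStmt`
`N = #P`, `E = #I`.  Take `ε` with `0 < ε ≤ 1/3`, `ε (1 + 3C/2) ≤ 1/3` and `C' = max(…) ^ …` large
(`C' ≥ w^C`, `C' ≥ 100`, `w = max ω₀ 100`).  If `E > C' N^(4/3-ε)` (so `N ≥ 1`): `d = E/N`,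
`lam = sqrt (N/d)`, `ω = max w (N^(3ε/2))`; `lam^2 d = N`, `lam^2 d^2 = E`, `d ≥ ω^C`,
`lam ≤ ω d` (as `N/d^3 ≤ N^(3ε)`), `π ≤ N ≤ ω lam d^2`.  `d ≤ 90 lam`: `hi` with `G = I`,
`A = B = P`, `Z = E/10` would give `E ≤ 6N` if `8N^4 ≤ E^3/1000`.

## `Window`: `theorem window (hs : SweepStmt) (hl : LevelStmt) : EdgeStmt`
`∑_{j < 2k} #edges P j ≤ 2k n`: for a fixed left end `L`, `R ↦ #{R' right of L | slope L R' <
slope L R}` is injective and `≤ rk`.  So some `j ∈ [k,2k)` has `#edges P j ≤ 2n`.  Index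
`e ∈ edges P (k-1)` by `w e = #{f ∈ edges P j | σf ≤ σe} / k ≤ 2n/k`.  For a nonempty index class
let `θ₁ ≤ θ₂` be its extreme slopes, `V = {p | rk θ₁ p ≤ j} ∪ {f.2 | f ∈ edges P j, θ₁ < σf ≤ θ₂}`,
`#V ≤ 3k` (`card_rk_le`).  By the sweep identity every `p` with `rk θ p ≤ j`, `θ ∈ [θ₁,θ₂]`, is in
`V`; so each `e` of the class lies in `edges V (k-1)`.  Total `≤ (2n/k+1) C (3k)^(4/3-ε)`.

## `Ksets`: `theorem ksets (he : EdgeStmt) : KsetStmt`
Shear `T(x,y) = (x + ηy, y)` with `η` avoiding finitely many values makes abscissae distinct; it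
preserves the determinant and separability (`a x + b y = a x' + (b - aη) y`); the reflection
`(x,y) ↦ (x,-y)` keeps `GP`.  For a separated `S` one may take `b ≠ 0` (perturb `b`; finite strict
inequalities); `b > 0`: `h θ p < h θ q` for `p ∈ S`, `q ∉ S`, `θ = -a/b`; `b < 0`: same after
reflection.  Lower sets: if some `p ∈ S`, `q ∉ S` have `p.1 < q.1`, take such a pair of least slope
`θ*`; then `(p,q) ∈ edges P (k-1)` and `S = insert p {z | below θ* z q}` (general position), so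
`S ↦ (p,q)` is injective; otherwise `S` is the set of the `k` rightmost points (at most one such
`S`).  So `#ksets ≤ 2 (e + 1)` and `1 ≤ n (k+1)^(1/3-ε)`.

## `Meet`: `theorem meet : MeetStmt`
From `Meets g i` (continuity of `x ↦ min_j (h σ_j (z x) - h σ_j (v j))` over `j` in run `g`, IVT on
the segment) get `z` on segment `i`, `WAbv g z`, and `i'` in run `g` with `h σ_{i'} z = h σ_{i'}
(v i')`; also `WAbv (root i) z` (`Sys.h_ge` at both ends, affine in between), `σ_i ≠ σ_{i'}`.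
Two such points `z, z'` of the same pair of runs `(f,g)` with `z.1 < z'.1` satisfy
`σ_i, σ_{i'} ≤ slope z z' ≤ σ_{i₂}, σ_{i₂'}`; edges `i + 2 ≤ i₂` of a run have `z.1 < z'.1`.
A finite set of integers without a triple `a+2 ≤ b`, `b+2 ≤ c` has `≤ 4` elements.  For fixed
`(f,g)` at most 4 meeting edges are not "middle" (`a + 2 ≤ i ≤ c - 2` for meeting edges `a, c`):
total `≤ 4π^2`.  For a middle one `σ_i, σ_{i'}` lie between the first and last slope of both runs.
`m_f τ = min over vertices of f of h τ` (continuous); `m_f σ_i = h σ_i z ≥ m_g σ_i`,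
`m_g σ_{i'} = h σ_{i'} z ≥ m_f σ_{i'}` (if `σ(l-1) ≤ τ ≤ σ l` and `z` is above both lines through
`v l` then `h τ (v l) ≤ h τ z`).  IVT: `τ` between `σ_i, σ_{i'}` with `m_f τ = m_g τ`, attained at
links `l` of `f`, `l'` of `g` with `τ ∈ [σ(l-1),σ l] ∩ [σ(l'-1),σ l']` (`h_ge_of_wait`).
`v l ≠ v l'` by `wait`; `(v l, v l')` determines `τ = slope`, then `l, l'` (`wait`), so `f, g`;
fibres have no triple (else `σ_{i} = σ_{i'}` for the middle one), so `≤ 4 #P^2`.

## `Cut`: `theorem cutLemma (hm : MeetStmt) : CutStmt`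
`R z = #{g ∈ starts I | Abv g z}`, `μ i = #{g ∈ starts | g ≠ root i, Meets g i}`, `∑ μ ≤ X`.
For `z, z'` on segment `i`: `|R z - R z'| ≤ μ i` (`¬ Abv (root i) z`).  `F g x = max_j line_j x`
over run `g`, `F (root i) x₀ = line_i x₀` on the segment; `R' f x₀ = #{g | (F g x₀, g) <lex
(F f x₀, f)}` is injective in `f ∈ starts`, and `|R' (root i) x₀ - R (v i)| ≤ μ i`.  For an offset
`o ∈ range w` let `str z = (R z + o) / w` (integer division) and `i` bad if
`(R(v i) - μ i + o)/w ≠ (R(v i) + μ i + o)/w`; each `i` is bad for `≤ 2μ i` offsets; average.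
For non-bad `i` straddling `x₀` in strip `k`, `i ↦ R' (root i) x₀ + o ∈ [kw, kw+w)` is injective
(two edges of one run cannot both straddle `x₀`: `x_le_of_seg`).

## `Wall`: `theorem istar (hc : CutStmt) : IStarStmt`, `theorem pstar (hc : CutStmt) : PStarStmt`
Wall lemma: given `str, Bad, w` and `A ⊆ P`, `α ≥ 1`, put `n q = #{z ∈ A | str z = str q, z.1 < q.1}`,
`cell q = n q / α`.  `n` is injective on `A ∩ strip`, onto `range #(A ∩ strip)`; cells have `≤ α`
points of `A`; a non-bad edge with different cells straddles a wall point `q* ∈ A` of its strip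
(`α ∣ n q* + 1`, `(v i).1 ≤ q*.1 < (v (i+1)).1`); there are `≤ #A/α` wall points, so
`α #cutA ≤ w #A`.  `pstar`: `A = P`, `α = ⌊s'⌋₊`, `w = max 1 ⌈X/Z⌉₊`, label `(str, cell)`.
`istar`: replace `A, B` by their intersections with `P` (`a, b`; trivial if one is 0),
`α = ⌈Z/b⌉₊`, `β = ⌈Z/a⌉₊`, `w = max 1 ⌈X/Z⌉₊`; edges that are not bad and not cut inject
(`eq_of_ends`) into pairs `(L,R)` with `L ∈ A` in the `A`-cell of `R ∈ B`: `≤ α b ≤ Z + b`.
`#G ≤ 2X/w + w a/α + w b/β + α b ≤ 5Z + a + 2b`.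

## `Cor`: `theorem heavy (hi : IStarStmt) : HeavyStmt`, `long (hi) : LongStmt`,
   `card (hi) : CardStmt`, `part' (hp : PStarStmt) : PartStmt`, `deg (hi) : DegStmt`
`heavy`: if `g = #G > 180(π+#P)z` use `Z = g/20`: `X a b ≤ X g z^2 ≤ Z^3`, `a ≤ g/2`.
`long`: `T` = roots with `≥ l` edges inside `Z`, `I' = I.filter (root ∈ T)` (`nr_filter_root`),
`#T l ≤ g`; `A = B = Z`, `Z₀ = g/10` is allowed if `g > 8000 z^2/l^2` and `g > 20 z D`, giving
`g ≤ 6z`.  `card`: `X ≤ 8u^2 lam^2 d^4`, `Z = 2u lam^2 d^2`.  `part'`: `Z = 3u lam^2 d^2/lam'`.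
`deg`: `heavy` with `A` = the heavy points, `B = P`, `ρ = g^2 d`, `z = lam/g`.

## `Descend`: `theorem descend (hi : IStarStmt) : DescendStmt`
`cut ≤ #G/2`; `∑_k g_k ≥ #G/2` (`g_k = #inside c k v G`), `∑ #part = #P`,
`∑ (π_k + t_k) ≤ u' lam^2 d^2/lam'` (`sum_nr_inside`).  Some `k` has
`g_k > c₁ #P_k + c₂ (π_k + t_k)`, `c₁ = #G/(8 lam^2 d) ≥ d/(8u)`,
`c₂ = #G lam'/(8 u' lam^2 d^2) ≥ lam'/(8uu')`.  `U₁ = 8uu'`.  `hi` for `Sys.part` with `Z = g/10`:
if `g ≤ lam'^2 d^2/(8000 U₁^4)` then `g ≤ g/2 + 3U₁ g/d`, false; if `g > 8000 U₁^2 lam'^2 d^2`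
then `g ≤ 6 lam'^2 d`, false.  So `π_k + t_k ≤ 8000 U₁^3 lam' d^2`.

## `Gamma`: `theorem gamma (hh : HeavyStmt) (hc : CardStmt) (hp : PartStmt) : GammaStmt`
Cells `c` from `hp` at `lam' = 300 Z^2`.  `i` is nice if `i-1 ∈ I` and `i-1, i` are not cut;
non-nice `≤ π + 2 cut`.  `ρ = d/Z`; `H` = nice edges whose nice out-degree in their class is
`≥ ρ/2`; heavy `≤ 2 nonnice + #H`.  If `H` meets (cell `k`, class `J`) at `p`, the `≥ ρ/2` nice
edges `i` give `≥ ρ/2` points `v (i+1)` and `≥ ρ/2` points `v (i-1)` in the cell (`eq_of_ends`,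
class of `i-1` by `Link`), and every pair (left, right) has slope in the hull of `J` (use
`exists_hull`, `slope_mem_of_sign` or convex combination), so `≥ ρ^2/4` pairs; hulls are disjoint:
each cell has `≤ n = 4 lam'^4 Z^2` such classes.  Pairs `(k,J)` with `#H_{k,J} ≤ #cell d/(4Zn)`
give `≤ s d/(4Z)`.  The others ("very hot"): `B_J` = union of these cells,
`#B_J ≤ 4Zn #I_J/d`; `hh` for the system `I_J`, `G` = its `H`-edges in very hot cells, `A` = their
left ends, `ρ/2`, `z^2 = 8 Z^2 n lam^2/Z^30`; sum with `sum_nr_class`: `∑ (π_J + #P) ≤ 2u lam d^2`.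

## `Excess`: `theorem excess (hh : HeavyStmt) : ExcessStmt`
`t = s/r ≤ nb ≤ 2s`.  Levels `x = u^k t`, `k ≤ E+1`, with `x ≤ nb i < u x`.  For class `J`, level
`x`: `G' = {i ∈ I_J | nb i ≤ 2ux, #{j | v j = v i, cl j = J, nb j ≤ 2ux} > ρ₀}`,
`ρ₀ = Z^10 x/lam^2 ≥ 2`, contains the excess edges of this level and is closed under changing `i`
to another counted `j`.  Strips `st P (lo J) W`, `W = 4ux+1`.  For strip `k'`: `G'_{k'}`, `A` = left
ends (`ρ₀ #A ≤ #G'_{k'}`), `B` = strips `k'±1` (`Sys.dr_le_nu`, `st_close`, `card_st3`;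
`#B ≤ 30ux`), system = runs having an edge in `G'_{k'}` (`nr_filter_root`); a run does so for
`≤ 3` strips.  `hh` with `z^2 = 30 u lam^2/Z^10` (any `z` with `z ≤ lam/Z^4` works: take
`z = lam/Z^4`).  At most `2r` strips, `r` classes, `E+2 ≤ Z` levels.

## `Alpha`: `theorem alpha : AlphaStmt`
`exists_hull` for `win`.  Count pairs `(p,w)`.  Those with `nu_w p > ν`: `≤ #P^2/ν`
(`Hull.card_nu_gt`).  Others: `i₀` attains `lo w`, `t_w = #(D ∩ [lo w, hi w])`, `∑ t_w ≤ #D`
(`Hull.lt`); for an edge `i` of window `w` at `p`: `rk σ_i p = rk σ_i (v(i+1)) + 1` (`rk_left`),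
`|rk (lo w) p - rk σ_i p| ≤ nu` (`abs_rk_sub_le_nu`), so `rk (lo w) p` is within `t_w + ν` of
`rk σ_{i₀} (v(i₀+1)) + 1`: `≤ 2t_w + 2ν + 1` points (`card_rk_Icc`); `card_image_le_of_bdd`.

## `LevelB`: `theorem levelB (hc : CardStmt) (hp : PartStmt) (hd : DescendStmt) (hg : GammaStmt)
   (hdeg : DegStmt) (ha : AlphaStmt) (hn : NarrowStmt) : LevelBStmt`
`λ = d/y`.  `hp` at `λ`; `t k` = number of edges with exactly one end in part `k`, `∑ t ≤ 2 cut`;
`π ≤ ω^2 lam^2 d^2/λ`; `hd` with `u' = 52 ω^2` gives `Cfg λ d u₀`, `u₀ = 8000 (416 ω^3)^4`,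
`t ≤ u₀ λ d^2`; `D` = slopes of the boundary edges, the hypothesis of `ha` comes from `Lv`.
`s = λ^2 d`.  Windows: `exists_quantile` with `W = 13 u₀ s d/y^2` (`win ≤ y^2`, fibres `≤ 2W`);
`N_w = ⌊y^2/Z^32⌋₊ ≥ 1`, `blk = win / N_w`, at most `Z^33` blocks, each with `≤ s d/Z^30` edges.
`I'` = delete block-changing edges (`class_change`, `link_filter`, `nr_le_sdiff`), `Cfg0 λ d (u₀+1)`.
Remove from `G ∩ I'`: `hg` (`≤ sd/Z`), `hdeg` with `g = 4000 u₀^2`, the edges at points active in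
more than `K = 90 u₀^2 g^2 y` windows (`ha` with `ν = s/y`: sum `≤ 9u₀ y s`, Markov), and `hn`
with `M = y^2/Z^70` (`Narrow` is monotone in `M`: smaller `M ≥ 0` is weaker).  At least
`s d/(2u₀)` remain.  Any `C ≥ 100` that makes the powers work.

## `LevelB2`: `theorem levelB2 (hc : CardStmt) (hp : PartStmt) (hd : DescendStmt) (hg : GammaStmt)
   (he : ExcessStmt) : LevelB2Stmt`
`λ₁ = N^65 lam`, `hp`+`hd` (`t = 0`, `u' = 18u`): `Cfg λ₁ d u₁`, `s₁ = λ₁^2 d`.  `q` from
`exists_quantile` with `W = s₁ d/(2N^30)`, `cl = win + q` (monotone; `cl i = cl j` forces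
`win i = win j` and `q i = q j` by comparing slopes), `≤ r = N^32` classes.  Delete class-changing
edges: `I₁'`, `Cfg0 λ₁ d (u₁+1)`.  Remove `hg` (`Z = N`) and `he` (`Z₁ = 20 u₁`, `E' = 32E`, hull
`lo₁ hi₁` of `I₁'`).  Label `p ↦ (c p, fun J => if J ∈ used then (st (lo₁ J) W_s p, st (hi₁ J) W_s p)
else 0)`, `c` from `hp` at `lam`, `W_s = s₁/(4r)`; cut `≤ cut c + 20 r^2 π₁` (`slab_cut`); `hd`.
In the chosen part `|nu p - nu p'| ≤ s₁/r` (`nu_le_nu`, `dr_lt_of_st_eq`), so for a non-excess good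
`i` all good `j` at the same point and class are counted: degree `≤ Z₁^10 nb i/λ₁^2`.  With `p₀` in
the part put `gam J = min (Z₁^10 (nu_J p₀ + 2s₁/r)/s₁) (1/N)`; `∑ gam ≤ 3 Z₁^10` (`Hull.sum_nu`).
New hull for the final `I'` by `exists_hull`.

## `Flat`: `theorem flat (hp : PartStmt) (hl : LongStmt) : FlatStmt`
Blobs `c` from `hp` at `l₀ = Z^4 l`; `q = l^2 d/Z^5`, `D = d/Z^4`, `l₁ = Z^2 l₀`.
`Y_{a,k,Q} = {z ∈ part Q | |st (lo a) W z - k| ≤ 1}`.  For a flat cherry `(g,i)`, `a = cl g`,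
`p = v i`, segment `[j,j+l)` (one class `≠ a`: `Link.seg`; all vertices within `W` of `p` in rank:
`rk_between`): (i) it contains a cut edge (`≤ 2 l cut` such `i`, `cher_snd`); or it stays in
`Y_{a,st p,c p}` and (ii) that set has `≤ q` points: `j ∈ longIn` of it, `∑ #Y ≤ 3s`, `hl`,
`cher_class`; or (iii) it has `> q` points, a property of `g` alone (`cher_fst`): exclude
`nu > W` (`card_nu_gt`), `g` cut, `g ∈ longIn (part (c p)) l₁` (`hl`); of the remaining `g` a run
has `≤ 7 (6W/q) l₁` (strips within 3 of each other by `Sys.dr_le_nu`, `st_close`; `≤ 6W/q` large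
`Y` per strip by `card_st3`; `< l₁` edges per blob), `card_le_nr_mul`.

## `Box`: `theorem box (hf : FlatStmt) : BoxStmt`
`hf` with `Z^2`, `W₁`, `l = ⌈Z^40 W₁/(lam d)⌉₊ ≤ 2 Z^40 W₁/(lam d)`.  Exclude flat cherries and
`nu_{cl e} (v e) > W₂` (`card_nu_gt`, `cher_snd`).  For fixed `a` (`cher_class`) count the remaining
`e` run by run: `≤ 7` values of `k₂ = st (lo c) W₂`, for each `≤ 18 W₂/q` values `k₁` with a big
`3×3` block (`q = Z^50 W₁W₂/s`, each point lies in 3 blocks of a row, `card_st3`), and `≤ l` edges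
per value `k₁` (if `e + l ≤ e'` are in the same `a`-strip then `e` is flat: `dr_lt_of_st_eq`,
`rk_between`).

## `HWcount`: `theorem hwcount (hf : FlatStmt) (hb : BoxStmt) (hl : LongStmt) : HWcountStmt`
`grp c = ⌊(∑_{c' used, c' < c} gam c')/(g/2)⌋₊` is monotone, `≤ 2u/g`, each group weighs `≤ g`.
`ρ' = g d/Z^4`, `l = ⌈m lam/Z^9⌉₊`, `W₃ = m s/U`, `W₂ = g m s/U`, `ν₀ = Z^8 g s`, `D = d/T^2`.
For a cherry `(a,e)`, `p = v e`, `c = cl e`: `Dset = {f ∈ G | v f = p, grp (cl f) = grp c,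
0 < ε₁ (cl f - c)}`.  Bad types: (0) `grp (cl a) = grp c` (`deg_set`, `cher_le_of_fst`);
(1) `#Dset < 3ρ'` (`≤ 4ρ'` such `e` per point and group); `≥ ρ'/5` elements `f ∈ Dset` with
(2) failure of `move2` for `r = rk (lo (cl a))`, system `{cl > cl a}`, `V = s`, `R = m s/2`;
(3) `Flat (lo (cl a)) W₃ l f` (`hf` with `Z^7`); (4) `nu` of the group hull (`exists_hull` for
`grp ∘ cl`) at `p` exceeds `ν₀`, or failure of `move2` for `r = ε₁ rk (lo c)`, system
`{grp = grp c, ε₁ side of c}`, `S` = good edges with small `nu`, `V = 2ν₀+1`, `R = U g m s/2`;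
(5) the segment `[j,j+l)` (`j = f` if `ε₂ = 1`, else `f - l`) has `j ∈ longIn Y l` for a `3×3`
block `Y` of size `≤ Z^100 (m s) W₂/s` (`hl`, `∑ #Y ≤ 9s`, `cher_class2`); (6) `zbox (lo a) (m s)
(lo c) W₂ p` is big (`hb` with `Z^2`).  Conversion: at most `g d` good edges at `p` per group, so
types (2)-(4) cost a factor `5 Z^4` times the count of bad pairs.  Otherwise
`F = {f ∈ Dset | ≥ ρ' elements of Dset have class strictly between c and cl f}` has `≥ ρ'`
elements, so some `f ∈ F` is good; `q = v (f ± l)`, `z = cl f` (`Sys.chord`).  It may help to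
split (1),(2),(4),(5) into lemmas or a second file.

## `HWgeom`: `theorem hwgeom : HWgeomStmt`
`a₀ = lo a < lo z ≤ β = slope p q`; `h a₀ q - h a₀ p = (β - a₀)(q.1 - p.1)`; `kap a₀` is increasing
on `(a₀,∞)`; `xc fst (h a₀) (kap a₀ θ) z = h θ z/(a₀ - θ)`, and
`xc … (κ c) q - xc … (κ c) p = (κ c - kap a₀ β)(Y q - Y p)`.  `ρ = |Y q - Y p|`,
`w = |kap a₀ β - κ c|`; the three sets are "weakly between" sets: `GP.card_between`, `Hull.lt`.

## `Cherry`: `theorem cherry (hw : HWcountStmt) (hg : HWgeomStmt) (hb : BoxStmt) (C₁ : ℕ)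
   (ha : AnStmt C₁) : CherryStmt C₁`
`Z = u^5`, `T = U^(A+1)`.  Cherries with `cl g < cl e` number `≥ s d^2/(4u^2)` (Cauchy-Schwarz over
`p`, symmetry, equal classes `≤ η d #G`).  Bad: `¬RW` for some levels `1/U^i, 1/U^j` and signs
(`cher_exists`), big `zbox (s/U^i) (s/U^j)`, `blk g = blk e`, `blk g = k(e)` (from `narrow`; both
`≤ ρ` per `e` by `spread`), weight of the used classes in the block of `e` `> 1/U^C₁` (at most
`u U^C₁` such blocks), `#{i ∈ G | v i = v e, win i = win e} < d/U^a₀` (`few`).  So `≥ s d^2/(8u^2)`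
good cherries; `Gd a p c := ∃ good cherry with cl g = a, v e = p, cl e = c`; by `dom` twice
(`cher_class_sum`, `card_class_pt`) some used `a` has mass `≥ s/(8u^3)`.  Apply `ha` with
`X = Prod.fst`, `Y = h (lo a)`, `C = used.filter (a < ·)`, `κ c = kap (lo a) (lo c)`.  `box`: points
of the metric box lie in `zbox` (`card_between`, `st_close`).  Dimension: `lo a = σ j`, `lo c = σ i'`
(`lo_mem`), `z` from `narrow`, `w = |kap z - κ c|`; classes between have the block of `e` (`monoB`);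
classes in the window of `e` are within `w/M` and weigh `≥ 1/U^a₀` (`deg_set`).

## `Core`: `theorem core (hB : LevelBStmt) (hB2 : LevelB2Stmt) (C₁ : ℕ) (hc : CherryStmt C₁) :
   CoreStmt` (helper88)
-/
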