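import Crest.Agent.R51.Stmts
import Crest.Agent.R34.SumProdBSG
import Crest.Agent.R34.SumProdSmall

/-!
# Row 51: the approximate-group step of the projection theorem
-/

set_option autoImplicit false

noncomputable section

namespace Crest.Agent.R51

open Finset Classical
open scoped Pointwise

/-- index of the cell of `x`, as a real number -/
def covI (δ x : ℝ) : ℝ := ((⌊x / δ⌋ : ℤ) : ℝ)

theorem covI_le (δ x : ℝ) : covI δ x ≤ x / δ := Int.floor_le _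

theorem covI_lt (δ x : ℝ) : x / δ < covI δ x + 1 := Int.lt_floor_add_one _

theorem cov_card_le {α β : Type*} [DecidableEq β] (W : Finset α) (f : α → β) {M : ℝ}
    (h : ∀ b ∈ W.image f, (#(W.filter fun a => f a = b) : ℝ) ≤ M) :
    (#W : ℝ) ≤ #(W.image f) * M := by
  have h1 : (#W : ℝ) = ∑ b ∈ W.image f, (#(W.filter fun a => f a = b) : ℝ) := by
    exact_mod_cast card_eq_sum_card_image f W
  rw [h1, ← nsmul_eq_mul]
  exact sum_le_card_nsmul _ _ _ h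

theorem cov_image_le {α : Type*} (W : Finset α) (f : α → ℝ) (g : α → ℤ) (n : ℕ)
    (h : ∀ p ∈ W, ∃ k : ℕ, k < n ∧ f p = (g p : ℝ) - k) :
    (#(W.image f) : ℝ) ≤ n * #(W.image g) := by
  have h1 : W.image f ⊆ ((W.image g) ×ˢ range n).image fun x => (x.1 : ℝ) - x.2 := by
    intro y hy
    obtain ⟨p, hp, rfl⟩ := mem_image.1 hy
    obtain ⟨k, hk, e⟩ := h p hp
    exact mem_image.2 ⟨(g p, k), mem_product.2 ⟨mem_image_of_mem _ hp, mem_range.2 hk⟩, e.symm⟩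
  have h2 := (card_le_card h1).trans card_image_le
  rw [card_product, card_range, mul_comm] at h2
  exact_mod_cast h2

theorem cov_floor_off {x : ℝ} {a : ℤ} {n : ℕ} (h1 : (a : ℝ) ≤ x) (h2 : x < a + n) :
    ∃ k : ℕ, k < n ∧ (a : ℝ) = (⌊x⌋ : ℝ) - k := by
  have h3 : a ≤ ⌊x⌋ := Int.le_floor.2 h1
  have h4 : ⌊x⌋ < a + n := Int.floor_lt.2 (by exact_mod_cast h2)
  obtain ⟨k, hk⟩ := Int.le.dest h3
  refine ⟨k, by omega, ?_⟩
  rw [← hk]
  push_cast
  ring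

theorem cov_image_I {α : Type*} (W : Finset α) (δ : ℝ) (Z : α → ℝ) :
    (#(W.image fun p => covI δ (Z p)) : ℝ) ≤ #(W.image fun p => ⌊Z p / δ⌋) := by
  have := cov_image_le W (fun p => covI δ (Z p)) (fun p => ⌊Z p / δ⌋) 1
    fun p _ => ⟨0, one_pos, by simp [covI]⟩
  simpa using this

theorem cov_close {δ x y : ℝ} (hδ : 0 < δ) (h : covI δ x = covI δ y) : |x - y| ≤ δ := by
  have h1 : ⌊x / δ⌋ = ⌊y / δ⌋ := by
    unfold covI at h
    exact_mod_cast h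
  have h2 := Int.abs_sub_lt_one_of_floor_eq_floor h1
  rw [← sub_div, abs_div, abs_of_pos hδ, div_lt_one hδ] at h2
  exact h2.le

variable {K D δ s : ℝ} {Ω : Finset Pt} {X Y : Pt → ℝ} {C : Finset ℕ} {τ κ : ℕ → ℝ}
  {Gd : Pt → ℕ → Prop}

theorem cov_cell (h : Disc K D δ s Ω X Y C τ κ Gd) {W : Finset Pt} (hW : W ⊆ Ω) {p : Pt}
    (hp : p ∈ Ω) (hc : ∀ q ∈ W, covI δ (X q) = covI δ (X p) ∧ covI δ (Y q) = covI δ (Y p)) :
    (#W : ℝ) ≤ K * s / D ^ 2 := by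
  refine le_trans ?_ (h.cell p hp)
  unfold mB
  refine Nat.cast_le.2 (card_le_card fun q hq => ?_)
  exact mem_filter.2 ⟨hW hq, cov_close h.δ_pos (hc q hq).1, cov_close h.δ_pos (hc q hq).2⟩

theorem cov_fib (h : Disc K D δ s Ω X Y C τ κ Gd) {W : Finset Pt} (hW : W ⊆ Ω) :
    (#W : ℝ) ≤ #(W.image fun p => (covI δ (X p), covI δ (Y p))) * (K * s / D ^ 2) := by
  refine cov_card_le W _ fun b hb => ?_
  obtain ⟨p, hp, rfl⟩ := mem_image.1 hb
  exact cov_cell h ((filter_subset _ _).trans hW) (hW hp) fun q hq =>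
    Prod.mk.inj (mem_filter.1 hq).2

theorem cov_pow {K : ℝ} (hK : 2 ≤ K) {c : ℝ} (n : ℕ) (hc : c ≤ 2 ^ n) : c ≤ K ^ n :=
  hc.trans (pow_le_pow_left₀ (by norm_num) hK n)

/-- step 1: the set `A₀` of small doubling -/
theorem cov_step1 (h : Disc K D δ s Ω X Y C τ κ Gd) :
    ∃ (A₀ S : Finset ℝ) (Ω₂ : Finset Pt), Ω₂ ⊆ Ω ∧ s / (32 * K ^ 3) ≤ (#Ω₂ : ℝ) ∧
      (#S : ℝ) ≤ 2 * D ∧ (∀ p ∈ Ω₂, covI δ (Y p) ∈ A₀ ∧ covI δ (X p) + covI δ (Y p) ∈ S) ∧
      ∀ m n : ℕ, (#(m • A₀ - n • A₀) : ℝ) ≤ (K ^ 45) ^ (m + n) * D := by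
  have hK := h.two_le
  have hK0 : 0 < K := by linarith
  have hD := h.D_pos
  have hs := h.s_pos
  obtain ⟨Ω₁, hΩ₁⟩ : ∃ Ω₁, Ω₁ = Ω.filter fun p =>
      s / (2 * K * D) ≤ (#(Ω.filter fun q => covI δ (Y q) = covI δ (Y p)) : ℝ) := ⟨_, rfl⟩
  have hsub : Ω₁ ⊆ Ω := by rw [hΩ₁]; exact filter_subset _ _
  have hJ : ∀ W ⊆ Ω, (#(W.image fun p => covI δ (Y p)) : ℝ) ≤ D := fun W hW =>
    le_trans (by exact_mod_cast card_le_card (image_subset_image hW))
      ((cov_image_I Ω δ Y).trans h.covY)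
  have hI : ∀ W ⊆ Ω, (#(W.image fun p => covI δ (X p)) : ℝ) ≤ D := fun W hW =>
    le_trans (by exact_mod_cast card_le_card (image_subset_image hW))
      ((cov_image_I Ω δ X).trans h.covX)
  have h1 : s / (2 * K) ≤ (#Ω₁ : ℝ) := by
    have a1 : (#(Ω \ Ω₁) : ℝ) ≤ #((Ω \ Ω₁).image fun p => covI δ (Y p)) * (s / (2 * K * D)) := by
      refine cov_card_le _ _ fun b hb => ?_
      obtain ⟨p, hp, rfl⟩ := mem_image.1 hb
      obtain ⟨hp1, hp2⟩ := mem_sdiff.1 hp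
      rw [hΩ₁, mem_filter, not_and, not_le] at hp2
      refine le_trans ?_ (hp2 hp1).le
      exact_mod_cast card_le_card (filter_subset_filter _ sdiff_subset)
    have a2 := mul_le_mul_of_nonneg_right (hJ (Ω \ Ω₁) sdiff_subset)
      (show 0 ≤ s / (2 * K * D) by positivity)
    have a3 : D * (s / (2 * K * D)) = s / (2 * K) := by field_simp
    have a4 : (#(Ω \ Ω₁) : ℝ) + #Ω₁ = #Ω := by exact_mod_cast card_sdiff_add_card_eq_card hsub
    have a5 : s / K = s / (2 * K) + s / (2 * K) := by field_simp; ring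
    linarith [h.le_card]
  obtain ⟨G₁, hG₁⟩ : ∃ G₁, G₁ = Ω₁.image fun p => (covI δ (X p), covI δ (Y p)) := ⟨_, rfl⟩
  have h2 : (2 * D) ^ 2 / (8 * K ^ 2) ≤ (#G₁ : ℝ) := by
    have a1 := h1.trans (cov_fib h hsub)
    rw [← hG₁, ← div_le_iff₀ (by positivity)] at a1
    refine le_trans (le_of_eq ?_) a1
    field_simp
    ring
  have h3 : (#(G₁.image fun x => x.1 + 1 * x.2) : ℝ) ≤ 2 * D := by
    rw [hG₁, image_image]
    have a1 := cov_image_le Ω₁ ((fun x : ℝ × ℝ => x.1 + 1 * x.2) ∘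
      fun p => (covI δ (X p), covI δ (Y p))) (fun p => ⌊(X p + Y p) / δ⌋) 2 fun p _ => by
        have b1 := covI_le δ (X p)
        have b2 := covI_le δ (Y p)
        have b3 := covI_lt δ (X p)
        have b4 := covI_lt δ (Y p)
        obtain ⟨k, hk, e⟩ := cov_floor_off (x := (X p + Y p) / δ)
          (a := ⌊X p / δ⌋ + ⌊Y p / δ⌋) (n := 2)
          (by rw [add_div]; push_cast; unfold covI at *; linarith)
          (by rw [add_div]; push_cast; unfold covI at *; linarith)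
        refine ⟨k, hk, ?_⟩
        rw [← e]
        simp [covI]
    refine a1.trans ?_
    have a2 : (#(Ω₁.image fun p => ⌊(X p + Y p) / δ⌋) : ℝ) ≤ D :=
      le_trans (by exact_mod_cast card_le_card (image_subset_image hsub)) h.covXY
    push_cast
    linarith
  obtain ⟨A', hA', A₀, hA₀, b1, b2, b3⟩ := Crest.Agent.R34.sp_bsg
    (Ω₁.image fun p => covI δ (X p)) (Ω₁.image fun p => covI δ (Y p)) G₁ (ξ := 1) one_ne_zero
    (N := 2 * D) (K := 8 * K ^ 2) (by positivity) (by positivity)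
    (by linarith [hI _ hsub]) (by linarith [hJ _ hsub])
    (by
      rw [hG₁]
      intro x hx
      obtain ⟨p, hp, rfl⟩ := mem_image.1 hx
      exact mem_product.2 ⟨mem_image_of_mem _ hp, mem_image_of_mem _ hp⟩) h2 h3
  rw [one_smul] at b3
  refine ⟨A₀, G₁.image fun x => x.1 + 1 * x.2, Ω₁.filter fun p => covI δ (Y p) ∈ A₀,
    (filter_subset _ _).trans hsub, ?_, h3, fun p hp => ⟨(mem_filter.1 hp).2, ?_⟩, fun m n => ?_⟩
  · have a1 : (#(Ω₁.filter fun p => covI δ (Y p) ∈ A₀) : ℝ) =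
        ∑ b ∈ A₀, (#((Ω₁.filter fun p => covI δ (Y p) ∈ A₀).filter
          fun p => covI δ (Y p) = b) : ℝ) := by
      exact_mod_cast card_eq_sum_card_fiberwise (f := fun p => covI δ (Y p))
        fun p hp => mem_coe.2 (mem_filter.1 (mem_coe.1 hp)).2
    have a2 : ∀ b ∈ A₀, s / (2 * K * D) ≤ (#((Ω₁.filter fun p => covI δ (Y p) ∈ A₀).filter
        fun p => covI δ (Y p) = b) : ℝ) := by
      intro b hb
      obtain ⟨p, hp, rfl⟩ := mem_image.1 (hA₀ hb)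
      have hp' := hp
      rw [hΩ₁, mem_filter] at hp'
      refine hp'.2.trans ?_
      refine Nat.cast_le.2 (card_le_card fun q hq => ?_)
      obtain ⟨q1, q2⟩ := mem_filter.1 hq
      refine mem_filter.2 ⟨mem_filter.2 ⟨?_, q2 ▸ hb⟩, q2⟩
      rw [hΩ₁, mem_filter, q2]
      exact ⟨q1, hp'.2⟩
    have a3 := card_nsmul_le_sum _ _ _ a2
    rw [nsmul_eq_mul, ← a1] at a3
    refine le_trans ?_ a3
    refine le_trans (le_of_eq ?_)
      (mul_le_mul_of_nonneg_right b2 (show 0 ≤ s / (2 * K * D) by positivity))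
    field_simp
    ring
  · rw [hG₁]
    exact mem_image.2 ⟨_, mem_image_of_mem _ (mem_filter.1 hp).1, by simp⟩
  · have a0 : (0 : ℝ) < #A' := lt_of_lt_of_le (by positivity) b1
    have a1 := Finset.pluennecke_ruzsa_inequality_nsmul_sub_nsmul_add
      (card_pos.1 (by exact_mod_cast a0)) A₀ m n
    have a2 := (NNRat.cast_le (K := ℝ)).2 a1
    push_cast at a2
    refine a2.trans ?_
    have a3 : (#A' : ℝ) ≤ D :=
      le_trans (by exact_mod_cast card_le_card hA') (hI _ hsub)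
    have a4 : (#(A' + A₀) : ℝ) / #A' ≤ K ^ 45 := by
      rw [div_le_iff₀ a0]
      refine b3.trans ?_
      have a5 : (3072 * 8 ^ 5 * 48 : ℝ) ≤ K ^ 33 := cov_pow hK 33 (by norm_num)
      calc 3072 * (8 * K ^ 2) ^ 5 * (2 * D)
          = (3072 * 8 ^ 5 * 48) * K ^ 12 * (2 * D / (6 * (8 * K ^ 2))) := by
            field_simp
            ring
        _ ≤ K ^ 33 * K ^ 12 * #A' := by gcongr
        _ = K ^ 45 * #A' := by ring
    gcongr

/-- step 2: both cell indices lie in translates of `± A₀` -/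
theorem cov_step2 (h : Disc K D δ s Ω X Y C τ κ Gd) :
    ∃ (A₀ : Finset ℝ) (σ₀ : ℝ) (Ω' : Finset Pt), Ω' ⊆ Ω ∧ s / K ^ 18 ≤ (#Ω' : ℝ) ∧
      (∀ p ∈ Ω', covI δ (Y p) ∈ A₀ ∧ σ₀ - covI δ (X p) ∈ A₀) ∧
      ∀ m n : ℕ, (#(m • A₀ - n • A₀) : ℝ) ≤ (K ^ 45) ^ (m + n) * D := by
  obtain ⟨A₀, S, Ω₂, hsub, hc, hS, hm, hP⟩ := cov_step1 h
  have hK := h.two_le
  have hK0 : 0 < K := by linarith
  have hD := h.D_pos
  have hs := h.s_pos
  have hI : (#(Ω₂.image fun p => covI δ (X p)) : ℝ) ≤ D :=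
    le_trans (by exact_mod_cast card_le_card (image_subset_image hsub))
      ((cov_image_I Ω δ X).trans h.covX)
  have h1 : ∀ p ∈ Ω₂, (#(Ω₂.filter fun q => covI δ (X p) = covI δ (X q)) : ℝ) ≤
      #(S.filter fun σ => σ - covI δ (X p) ∈ A₀) * (K * s / D ^ 2) := by
    intro p _
    refine (cov_fib h ((filter_subset _ _).trans hsub)).trans
      (mul_le_mul_of_nonneg_right (Nat.cast_le.2 ?_) (by positivity))
    refine card_le_card_of_injOn (fun x => x.1 + x.2) (fun x hx => ?_) fun x hx y hy e => ?_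
    · obtain ⟨q, hq, rfl⟩ := mem_image.1 (mem_coe.1 hx)
      obtain ⟨q1, q2⟩ := mem_filter.1 hq
      refine mem_coe.2 (mem_filter.2 ⟨(hm q q1).2, ?_⟩)
      rw [q2]
      simpa using (hm q q1).1
    · obtain ⟨q, hq, rfl⟩ := mem_image.1 (mem_coe.1 hx)
      obtain ⟨q', hq', rfl⟩ := mem_image.1 (mem_coe.1 hy)
      have e1 := (mem_filter.1 hq).2
      have e2 := (mem_filter.1 hq').2
      simp only at e
      exact Prod.ext (e1.symm.trans e2) (by simp only; linarith)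
  have h2 := Crest.Agent.R34.sp_card_sq_le Ω₂ fun p => covI δ (X p)
  rw [Crest.Agent.R34.sp_card_filter_prod Ω₂ Ω₂ fun p q => covI δ (X p) = covI δ (X q)] at h2
  have h3 := sum_le_sum h1
  rw [← sum_mul, Crest.Agent.R34.sp_double_count Ω₂ S fun p σ => σ - covI δ (X p) ∈ A₀] at h3
  have h4 : (s / (32 * K ^ 3)) ^ 2 ≤ D *
      ((∑ σ ∈ S, (#(Ω₂.filter fun p => σ - covI δ (X p) ∈ A₀) : ℝ)) * (K * s / D ^ 2)) :=
    (pow_le_pow_left₀ (by positivity) hc 2).trans (h2.trans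
      (mul_le_mul hI h3 (sum_nonneg fun _ _ => Nat.cast_nonneg _) hD.le))
  obtain ⟨σ₀, -, hσ⟩ := Crest.Agent.R34.sp_exists_ge S
    (fun σ => (#(Ω₂.filter fun p => σ - covI δ (X p) ∈ A₀) : ℝ)) (c := s / (2048 * K ^ 7))
    (n := 2 * D) (by positivity) (by positivity) hS (by
      rw [mul_left_comm, ← div_le_iff₀ (by positivity)] at h4
      refine le_trans (le_of_eq ?_) h4
      field_simp
      ring)
  refine ⟨A₀, σ₀, Ω₂.filter fun p => σ₀ - covI δ (X p) ∈ A₀, (filter_subset _ _).trans hsub,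
    le_trans ?_ hσ, fun p hp => ⟨(hm p (mem_filter.1 hp).1).1, (mem_filter.1 hp).2⟩, hP⟩
  refine div_le_div_of_nonneg_left hs.le (by positivity) ?_
  have a5 : (2048 : ℝ) ≤ K ^ 11 := cov_pow hK 11 (by norm_num)
  calc 2048 * K ^ 7 ≤ K ^ 11 * K ^ 7 := by gcongr
    _ = K ^ 18 := by ring

/-- `x A₀` is covered, up to an error `r`, by `M` translates of `m A₀ - m A₀` -/
def CovA (A₀ : Finset ℝ) (x : ℝ) (m : ℕ) (r M : ℝ) : Prop :=
  ∃ T : Finset ℝ, (#T : ℝ) ≤ M ∧ ∀ b ∈ A₀, ∃ t ∈ T, ∃ u ∈ m • A₀, ∃ v ∈ m • A₀,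
    |x * b - t - (u - v)| ≤ r

theorem CovA.add {A₀ : Finset ℝ} {x x' r r' M M' : ℝ} {m m' : ℕ} (h : CovA A₀ x m r M)
    (h' : CovA A₀ x' m' r' M') : CovA A₀ (x + x') (m + m') (r + r') (M * M') := by
  obtain ⟨T, hT, h⟩ := h
  obtain ⟨T', hT', h'⟩ := h'
  refine ⟨T + T', le_trans (by exact_mod_cast card_add_le)
    (mul_le_mul hT hT' (Nat.cast_nonneg _) ((Nat.cast_nonneg _).trans hT)), fun b hb => ?_⟩
  obtain ⟨t, ht, u, hu, v, hv, e⟩ := h b hb
  obtain ⟨t', ht', u', hu', v', hv', e'⟩ := h' b hb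
  refine ⟨t + t', add_mem_add ht ht', u + u', by rw [add_nsmul]; exact add_mem_add hu hu',
    v + v', by rw [add_nsmul]; exact add_mem_add hv hv', ?_⟩
  have : (x + x') * b - (t + t') - (u + u' - (v + v')) =
      (x * b - t - (u - v)) + (x' * b - t' - (u' - v')) := by ring
  rw [this]
  exact (abs_add_le _ _).trans (add_le_add e e')

theorem CovA.sub {A₀ : Finset ℝ} {x x' r r' M M' : ℝ} {m m' : ℕ} (h : CovA A₀ x m r M)
    (h' : CovA A₀ x' m' r' M') : CovA A₀ (x - x') (m + m') (r + r') (M * M') := by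
  obtain ⟨T, hT, h⟩ := h
  obtain ⟨T', hT', h'⟩ := h'
  refine ⟨T - T', le_trans (by exact_mod_cast card_sub_le)
    (mul_le_mul hT hT' (Nat.cast_nonneg _) ((Nat.cast_nonneg _).trans hT)), fun b hb => ?_⟩
  obtain ⟨t, ht, u, hu, v, hv, e⟩ := h b hb
  obtain ⟨t', ht', u', hu', v', hv', e'⟩ := h' b hb
  refine ⟨t - t', sub_mem_sub ht ht', u + v', by rw [add_nsmul]; exact add_mem_add hu hv',
    v + u', by rw [add_nsmul]; exact add_mem_add hv hu', ?_⟩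
  have : (x - x') * b - (t - t') - (u + v' - (v + u')) =
      (x * b - t - (u - v)) - (x' * b - t' - (u' - v')) := by ring
  rw [this]
  exact (abs_sub _ _).trans (add_le_add e e')

theorem CovA.mul {A₀ : Finset ℝ} {p k r M M' : ℝ} {m : ℕ} (h : CovA A₀ p m r M)
    (h' : CovA A₀ k 1 1 M') (hp : |p| ≤ 2) :
    CovA A₀ (p * k) (m + m) (r + r + 2) (M' * (M * M)) := by
  obtain ⟨T, hT, h⟩ := h
  obtain ⟨T', hT', h'⟩ := h'
  have hM : 0 ≤ M := (Nat.cast_nonneg _).trans hT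
  refine ⟨T'.image (fun t => p * t) + (T - T), ?_, fun b hb => ?_⟩
  · have a1 : (#(T'.image fun t => p * t) : ℝ) ≤ M' :=
      le_trans (by exact_mod_cast card_image_le) hT'
    have a2 : (#(T - T) : ℝ) ≤ M * M := le_trans (by exact_mod_cast card_sub_le)
      (mul_le_mul hT hT (Nat.cast_nonneg _) hM)
    exact le_trans (by exact_mod_cast card_add_le)
      (mul_le_mul a1 a2 (Nat.cast_nonneg _) ((Nat.cast_nonneg _).trans a1))
  obtain ⟨t, ht, a, ha, a', ha', e⟩ := h' b hb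
  rw [one_nsmul] at ha ha'
  obtain ⟨t₁, ht₁, u₁, hu₁, v₁, hv₁, e₁⟩ := h a ha
  obtain ⟨t₂, ht₂, u₂, hu₂, v₂, hv₂, e₂⟩ := h a' ha'
  refine ⟨p * t + (t₁ - t₂), add_mem_add (mem_image_of_mem _ ht) (sub_mem_sub ht₁ ht₂),
    u₁ + v₂, by rw [add_nsmul]; exact add_mem_add hu₁ hv₂,
    v₁ + u₂, by rw [add_nsmul]; exact add_mem_add hv₁ hu₂, ?_⟩
  have e0 : p * k * b - (p * t + (t₁ - t₂)) - (u₁ + v₂ - (v₁ + u₂)) =
      ((p * a - t₁ - (u₁ - v₁)) - (p * a' - t₂ - (u₂ - v₂))) + p * (k * b - t - (a - a')) := by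
    ring
  rw [e0]
  refine (abs_add_le _ _).trans (add_le_add ((abs_sub _ _).trans (add_le_add e₁ e₂)) ?_)
  rw [abs_mul]
  nlinarith [abs_nonneg p, abs_nonneg (k * b - t - (a - a'))]

/-- step 3: a popular direction dilates `A₀` into few translates of `A₀ - A₀` -/
theorem cov_step3 (h : Disc K D δ s Ω X Y C τ κ Gd) {A₀ : Finset ℝ} {σ₀ k : ℝ} {W : Finset Pt}
    (hW : W ⊆ Ω) (hc : s / K ^ 21 ≤ (#W : ℝ))
    (hm : ∀ p ∈ W, covI δ (Y p) ∈ A₀ ∧ σ₀ - covI δ (X p) ∈ A₀)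
    (hA : (#(A₀ + A₀) : ℝ) ≤ K ^ 90 * D) (hk0 : 0 ≤ k) (hk1 : k ≤ 1)
    (hcov : (#(W.image fun p => ⌊xc X Y k p / δ⌋) : ℝ) ≤ D) : CovA A₀ k 1 1 (K ^ 114) := by
  have hK := h.two_le
  have hK0 : 0 < K := by linarith
  have hD := h.D_pos
  have hs := h.s_pos
  obtain ⟨G, hG⟩ : ∃ G, G = W.image fun p => (covI δ (X p), covI δ (Y p)) := ⟨_, rfl⟩
  have h1 : D ^ 2 / K ^ 22 ≤ (#G : ℝ) := by
    have a1 := hc.trans (cov_fib h hW)
    rw [← hG, ← div_le_iff₀ (by positivity)] at a1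
    refine le_trans (le_of_eq ?_) a1
    field_simp
  have h2 : (#(G.image fun x => x.1 + (⌊k * x.2⌋ : ℝ)) : ℝ) ≤ 3 * D := by
    rw [hG, image_image]
    have a1 := cov_image_le W ((fun x : ℝ × ℝ => x.1 + (⌊k * x.2⌋ : ℝ)) ∘
      fun p => (covI δ (X p), covI δ (Y p))) (fun p => ⌊xc X Y k p / δ⌋) 3 fun p _ => by
        have b1 := covI_le δ (X p)
        have b2 := covI_le δ (Y p)
        have b3 := covI_lt δ (X p)
        have b4 := covI_lt δ (Y p)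
        have b5 := Int.floor_le (k * covI δ (Y p))
        have b6 := Int.lt_floor_add_one (k * covI δ (Y p))
        have b7 : xc X Y k p / δ = X p / δ + k * (Y p / δ) := by unfold xc; ring
        have b8 : k * covI δ (Y p) ≤ k * (Y p / δ) := mul_le_mul_of_nonneg_left b2 hk0
        have b9 : k * (Y p / δ) ≤ k * (covI δ (Y p) + 1) := mul_le_mul_of_nonneg_left b4.le hk0
        have b10 : ((⌊X p / δ⌋ : ℤ) : ℝ) = covI δ (X p) := rfl
        obtain ⟨l, hl, e⟩ := cov_floor_off (x := xc X Y k p / δ)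
          (a := ⌊X p / δ⌋ + ⌊k * covI δ (Y p)⌋) (n := 3)
          (by rw [b7]; push_cast; rw [b10]; linarith)
          (by rw [b7]; push_cast; rw [b10]; linarith)
        refine ⟨l, hl, ?_⟩
        rw [← e]
        simp [covI]
    refine a1.trans ?_
    push_cast
    linarith
  have h3 : (#G : ℝ) = ∑ σ ∈ G.image fun x => x.1 + (⌊k * x.2⌋ : ℝ),
      (#(G.filter fun x => x.1 + (⌊k * x.2⌋ : ℝ) = σ) : ℝ) := by
    exact_mod_cast card_eq_sum_card_image _ G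
  obtain ⟨σ, -, hσ⟩ := Crest.Agent.R34.sp_exists_ge (G.image fun x => x.1 + (⌊k * x.2⌋ : ℝ))
    (fun σ => (#(G.filter fun x => x.1 + (⌊k * x.2⌋ : ℝ) = σ) : ℝ)) (c := D / (3 * K ^ 22))
    (n := 3 * D) (by positivity) (by positivity) h2 (by
      rw [← h3]
      refine le_trans (le_of_eq ?_) h1
      field_simp)
  obtain ⟨B, hB⟩ : ∃ B, B = (G.filter fun x => x.1 + (⌊k * x.2⌋ : ℝ) = σ).image Prod.snd :=
    ⟨_, rfl⟩
  have h4 : D / (3 * K ^ 22) ≤ (#B : ℝ) := by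
    rw [hB, card_image_of_injOn]
    · exact hσ
    · intro x hx y hy e
      have e1 := (mem_filter.1 (mem_coe.1 hx)).2
      have e2 := (mem_filter.1 (mem_coe.1 hy)).2
      rw [e] at e1
      exact Prod.ext (by linarith) e
  have h5 : ∀ b ∈ B, b ∈ A₀ ∧ σ₀ - σ + (⌊k * b⌋ : ℝ) ∈ A₀ := by
    intro b hb
    rw [hB] at hb
    obtain ⟨x, hx, rfl⟩ := mem_image.1 hb
    obtain ⟨x1, x2⟩ := mem_filter.1 hx
    rw [hG] at x1
    obtain ⟨p, hp, rfl⟩ := mem_image.1 x1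
    refine ⟨(hm p hp).1, ?_⟩
    have e : σ₀ - σ + (⌊k * covI δ (Y p)⌋ : ℝ) = σ₀ - covI δ (X p) := by
      simp only at x2
      linarith
    simp only
    rw [e]
    exact (hm p hp).2
  have hB0 : (0 : ℝ) < #B := lt_of_lt_of_le (by positivity) h4
  obtain ⟨T, -, hT, hcover⟩ := Finset.ruzsa_covering_add (K := K ^ 114) (A := A₀) (B := B)
    (card_pos.1 (by exact_mod_cast hB0)) (by
      have a1 : (#(A₀ + B) : ℝ) ≤ #(A₀ + A₀) := by
        exact_mod_cast card_le_card (add_subset_add_left fun b hb => (h5 b hb).1)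
      have a2 : (3 : ℝ) ≤ K ^ 2 := cov_pow hK 2 (by norm_num)
      calc (#(A₀ + B) : ℝ) ≤ K ^ 90 * D := a1.trans hA
        _ = 3 * K ^ 112 * (D / (3 * K ^ 22)) := by field_simp
        _ ≤ K ^ 2 * K ^ 112 * #B := by gcongr
        _ = K ^ 114 * #B := by ring)
  refine ⟨T.image fun t => k * t, le_trans (by exact_mod_cast card_image_le) hT, fun b hb => ?_⟩
  obtain ⟨t, ht, y, hy, rfl⟩ := mem_add.1 (hcover hb)
  obtain ⟨b₁, hb₁, b₂, hb₂, rfl⟩ := mem_sub.1 hy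
  refine ⟨k * t, mem_image_of_mem _ ht, _, by rw [one_nsmul]; exact (h5 b₁ hb₁).2,
    _, by rw [one_nsmul]; exact (h5 b₂ hb₂).2, ?_⟩
  have b1 := Int.floor_le (k * b₁)
  have b2 := Int.lt_floor_add_one (k * b₁)
  have b3 := Int.floor_le (k * b₂)
  have b4 := Int.lt_floor_add_one (k * b₂)
  exact abs_le.2 ⟨by linarith, by linarith⟩

/-- step 4: collisions -/
theorem cov_step4 {A₀ : Finset ℝ} {Ω' : Finset Pt} {Y : Pt → ℝ} {δ w M M' : ℝ} (hδ : 0 < δ)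
    (hm : ∀ p ∈ Ω', covI δ (Y p) ∈ A₀) (hw : |w| ≤ 4) (hc : CovA A₀ w 16 20 M)
    (hA : (#(17 • A₀ - 16 • A₀) : ℝ) ≤ M') :
    (#Ω' : ℝ) ^ 4 ≤ M * M' * coll Ω' Y w (100 * δ) := by
  obtain ⟨T, hT, hc⟩ := hc
  have h1 : ∀ x : Pt × Pt, ∃ z : ℝ, x ∈ Ω' ×ˢ Ω' → z ∈ T + (17 • A₀ - 16 • A₀) ∧
      |(Y x.1 + w * Y x.2) / δ - z| ≤ 25 := by
    intro x
    by_cases hx : x ∈ Ω' ×ˢ Ω'
    swap
    · exact ⟨0, fun h => absurd h hx⟩
    obtain ⟨x1, x2⟩ := mem_product.1 hx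
    obtain ⟨t, ht, u, hu, v, hv, e⟩ := hc _ (hm _ x2)
    refine ⟨t + (u + covI δ (Y x.1) - v), fun _ => ⟨add_mem_add ht (sub_mem_sub ?_ hv), ?_⟩⟩
    · rw [succ_nsmul]
      exact add_mem_add hu (hm _ x1)
    · have b1 := covI_le δ (Y x.1)
      have b2 := covI_lt δ (Y x.1)
      have b3 := covI_le δ (Y x.2)
      have b4 := covI_lt δ (Y x.2)
      have e0 : (Y x.1 + w * Y x.2) / δ - (t + (u + covI δ (Y x.1) - v)) =
          (Y x.1 / δ - covI δ (Y x.1)) + w * (Y x.2 / δ - covI δ (Y x.2)) +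
            (w * covI δ (Y x.2) - t - (u - v)) := by ring
      have b5 : |Y x.1 / δ - covI δ (Y x.1)| ≤ 1 := abs_le.2 ⟨by linarith, by linarith⟩
      have b6 : |Y x.2 / δ - covI δ (Y x.2)| ≤ 1 := abs_le.2 ⟨by linarith, by linarith⟩
      have b7 : |w * (Y x.2 / δ - covI δ (Y x.2))| ≤ 4 := by
        rw [abs_mul]
        nlinarith [abs_nonneg w, abs_nonneg (Y x.2 / δ - covI δ (Y x.2))]
      rw [e0]
      refine (abs_add_three _ _ _).trans ?_
      linarith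
  choose f hf using h1
  have h2 := Crest.Agent.R34.sp_card_sq_le (Ω' ×ˢ Ω') f
  have h3 : (#((Ω' ×ˢ Ω').image f) : ℝ) ≤ M * M' := by
    have a1 : (Ω' ×ˢ Ω').image f ⊆ T + (17 • A₀ - 16 • A₀) := fun z hz => by
      obtain ⟨x, hx, rfl⟩ := mem_image.1 hz
      exact (hf x hx).1
    have a2 : (#((Ω' ×ˢ Ω').image f) : ℝ) ≤ #T * #(17 • A₀ - 16 • A₀) := by
      exact_mod_cast (card_le_card a1).trans card_add_le
    exact a2.trans (mul_le_mul hT hA (Nat.cast_nonneg _) ((Nat.cast_nonneg _).trans hT))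
  have h4 : (#(((Ω' ×ˢ Ω') ×ˢ (Ω' ×ˢ Ω')).filter fun x => f x.1 = f x.2) : ℝ) ≤
      coll Ω' Y w (100 * δ) := by
    unfold coll
    refine Nat.cast_le.2 (card_le_card fun x hx => ?_)
    obtain ⟨x1, x2⟩ := mem_filter.1 hx
    refine mem_filter.2 ⟨x1, ?_⟩
    have a1 := abs_le.1 (hf _ (mem_product.1 x1).1).2
    have a2 := abs_le.1 (hf _ (mem_product.1 x1).2).2
    have a3 : |(Y x.1.1 + w * Y x.1.2 - (Y x.2.1 + w * Y x.2.2)) / δ| ≤ 100 := by
      rw [sub_div]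
      exact abs_le.2 ⟨by linarith [a1.1, a2.2], by linarith [a1.2, a2.1]⟩
    rwa [abs_div, abs_of_pos hδ, div_le_iff₀ hδ] at a3
  rw [card_product, Nat.cast_mul] at h2
  calc (#Ω' : ℝ) ^ 4 = ((#Ω' : ℝ) * #Ω') ^ 2 := by ring
    _ ≤ _ := h2
    _ ≤ _ := mul_le_mul h3 h4 (Nat.cast_nonneg _) ((Nat.cast_nonneg _).trans h3)

theorem cover : CoverStmt := by
  refine ⟨3537, fun K D δ s Ω X Y C τ κ Gd h => ?_⟩
  obtain ⟨A₀, σ₀, Ω', hsub, hc, hm, hP⟩ := cov_step2 h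
  have hK := h.two_le
  have hK0 : 0 < K := by linarith
  have hD := h.D_pos
  have hs := h.s_pos
  have hΩ0 : (0 : ℝ) < #Ω' := lt_of_lt_of_le (by positivity) hc
  obtain ⟨C', hC'⟩ : ∃ C', C' = C.filter fun c =>
      (#Ω' : ℝ) / (2 * K ^ 2) ≤ #(Ω'.filter fun p => Gd p c) := ⟨_, rfl⟩
  have hCsub : C' ⊆ C := by rw [hC']; exact filter_subset _ _
  refine ⟨Ω', hsub, C', hCsub, le_trans ?_ hc, ?_, ?_⟩
  · exact div_le_div_of_nonneg_left hs.le (by positivity)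
      (pow_le_pow_right₀ (by linarith) (by norm_num))
  · have a1 : (#Ω' : ℝ) * (1 / K) ≤ ∑ c ∈ C, τ c * #(Ω'.filter fun p => Gd p c) := by
      have b1 := card_nsmul_le_sum Ω' _ _ fun p hp => h.wt p (hsub hp)
      rw [nsmul_eq_mul] at b1
      refine b1.trans (le_of_eq ?_)
      simp only [sum_filter, card_filter, Nat.cast_sum, Nat.cast_ite, Nat.cast_one,
        Nat.cast_zero, mul_sum, mul_ite, mul_one, mul_zero]
      exact sum_comm
    have a2 : ∑ c ∈ C, τ c * (#(Ω'.filter fun p => Gd p c) : ℝ) ≤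
        ∑ c ∈ C, ((if c ∈ C' then τ c else 0) * #Ω' + τ c * (#Ω' / (2 * K ^ 2))) := by
      refine sum_le_sum fun c hc => ?_
      have b0 := h.nonneg c
      split_ifs with hc'
      · have b1 : (#(Ω'.filter fun p => Gd p c) : ℝ) ≤ #Ω' := by
          exact_mod_cast card_filter_le _ _
        have b2 := mul_le_mul_of_nonneg_left b1 b0
        have b3 : 0 ≤ τ c * (#Ω' / (2 * K ^ 2)) := by positivity
        linarith
      · rw [hC', mem_filter, not_and, not_le] at hc'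
        have b2 := mul_le_mul_of_nonneg_left (hc' hc).le b0
        linarith
    rw [sum_add_distrib, ← sum_mul, ← sum_mul, sum_ite_mem, inter_eq_right.2 hCsub] at a2
    have a3 := mul_le_mul_of_nonneg_right h.total
      (show 0 ≤ (#Ω' : ℝ) / (2 * K ^ 2) by positivity)
    have a4 : K * ((#Ω' : ℝ) / (2 * K ^ 2)) = #Ω' * (1 / (2 * K)) := by field_simp
    have a5 : (#Ω' : ℝ) * (1 / K) = #Ω' * (1 / (2 * K)) + #Ω' * (1 / (2 * K)) := by
      field_simp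
      ring
    refine le_of_mul_le_mul_left ?_ hΩ0
    linarith
  · have hA : (#(A₀ + A₀) : ℝ) ≤ K ^ 90 * D := by
      have a1 := hP 2 0
      rw [zero_nsmul, sub_zero, two_nsmul, ← pow_mul] at a1
      exact a1
    have hcov : ∀ c ∈ C', CovA A₀ (κ c) 1 1 (K ^ 114) := by
      intro c hc'
      have hc'' := hc'
      rw [hC', mem_filter] at hc''
      refine cov_step3 h (σ₀ := σ₀) (W := Ω'.filter fun p => Gd p c)
        ((filter_subset _ _).trans hsub) (le_trans ?_ hc''.2)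
        (fun p hp => hm p (mem_filter.1 hp).1) hA (h.k0 c hc''.1) (h.k1 c hc''.1) ?_
      · calc s / K ^ 21 = s / K ^ 18 / (K * K ^ 2) := by field_simp
          _ ≤ #Ω' / (2 * K ^ 2) := by gcongr
      · exact le_trans (by
          exact_mod_cast card_le_card (image_subset_image (filter_subset_filter _ hsub)))
          (h.covC c hc''.1)
    have hlin : ∀ p, Lin C' κ p → |p| ≤ 2 ∧ CovA A₀ p (1 + 1 + (1 + 1)) (1 + 1 + (1 + 1))
        (K ^ 114 * K ^ 114 * (K ^ 114 * K ^ 114)) := by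
      rintro p ⟨c₁, h₁, c₂, h₂, c₃, h₃, c₄, h₄, rfl⟩
      refine ⟨abs_le.2 ⟨?_, ?_⟩, ((hcov _ h₁).sub (hcov _ h₂)).add ((hcov _ h₃).sub (hcov _ h₄))⟩
      · linarith [h.k0 _ (hCsub h₁), h.k1 _ (hCsub h₂), h.k0 _ (hCsub h₃), h.k1 _ (hCsub h₄)]
      · linarith [h.k1 _ (hCsub h₁), h.k0 _ (hCsub h₂), h.k1 _ (hCsub h₃), h.k0 _ (hCsub h₄)]
    intro p q hp hq c hc1 c' hc2
    obtain ⟨p1, p2⟩ := hlin p hp
    obtain ⟨q1, q2⟩ := hlin q hq
    have hw := (p2.mul (hcov c hc1) p1).add (q2.mul (hcov c' hc2) q1)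
    have hw4 : |p * κ c + q * κ c'| ≤ 4 := by
      have a1 := h.k0 _ (hCsub hc1)
      have a2 := h.k1 _ (hCsub hc1)
      have a3 := h.k0 _ (hCsub hc2)
      have a4 := h.k1 _ (hCsub hc2)
      refine (abs_add_le _ _).trans ?_
      rw [abs_mul, abs_mul, abs_of_nonneg a1, abs_of_nonneg a3]
      nlinarith [abs_nonneg p, abs_nonneg q]
    have e20 : (1 + 1 + (1 + 1) + (1 + 1 + (1 + 1)) + 2 +
        (1 + 1 + (1 + 1) + (1 + 1 + (1 + 1)) + 2) : ℝ) = 20 := by norm_num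
    rw [e20] at hw
    have h4 := cov_step4 h.δ_pos (fun p hp => (hm p hp).1) hw4 hw (hP 17 16)
    rw [div_le_iff₀ (by positivity)]
    refine h4.trans (le_of_eq ?_)
    simp only [← pow_add, ← pow_mul]
    rw [← mul_assoc, ← pow_add, mul_comm]

end Crest.Agent.R51
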