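import Mathlib

/-!
# Row 51 (S0070, planar k-sets, power saving over Dey's bound): definitions

See `Blueprint.lean` for the whole proof and `Stmts.lean` for the statements of the parts.
-/

set_option autoImplicit false

noncomputable section

namespace Crest.Agent.R51

open Finset Classical

/-- points of the plane -/
abbrev Pt := ℝ × ℝ

/-- height in direction (slope, "time") `θ` -/
def h (θ : ℝ) (p : Pt) : ℝ := p.2 - θ * p.1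

/-- slope of the line through two points -/
def slope (p q : Pt) : ℝ := (q.2 - p.2) / (q.1 - p.1)

/-- general position: distinct abscissae, no three collinear -/
structure GP (P : Finset Pt) : Prop where
  xinj : ∀ p ∈ P, ∀ q ∈ P, p.1 = q.1 → p = q
  ncol : ∀ p ∈ P, ∀ q ∈ P, ∀ r ∈ P, p ≠ q → p ≠ r → q ≠ r →
    (q.1 - p.1) * (r.2 - p.2) - (q.2 - p.2) * (r.1 - p.1) ≠ 0

/-- `q` is below `p` at time `θ` (ties: the right point is lower); a strict total order on a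
set with distinct abscissae -/
def below (θ : ℝ) (q p : Pt) : Prop := h θ q < h θ p ∨ (h θ q = h θ p ∧ p.1 < q.1)

/-- rank of `p` in `P` at time `θ` -/
def rk (P : Finset Pt) (θ : ℝ) (p : Pt) : ℕ := #(P.filter fun q => below θ q p)

/-- number of points of `P` seen from `p` with slope in `[lo, hi]` -/
def nu (P : Finset Pt) (lo hi : ℝ) (p : Pt) : ℕ :=
  #(P.filter fun q => q ≠ p ∧ lo ≤ slope p q ∧ slope p q ≤ hi)

/-- index of the rank strip of width `W` -/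
def st (P : Finset Pt) (θ W : ℝ) (p : Pt) : ℤ := ⌊(rk P θ p : ℝ) / W⌋

/-- lower `j`-edges: pairs (left, right) with exactly `j` points below their line -/
def edges (P : Finset Pt) (j : ℕ) : Finset (Pt × Pt) :=
  (P ×ˢ P).filter fun e => e.1.1 < e.2.1 ∧ rk P (slope e.1 e.2) e.2 = j

/-- slope of edge number `i`, which goes from `v i` to `v (i+1)` -/
def sl (v : ℤ → Pt) (i : ℤ) : ℝ := slope (v i) (v (i + 1))

/-- A system of convex chains: edge `i ∈ I` goes from `v i` to `v (i+1)`; maximal runs of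
consecutive integers in `I` are the chains ("tokens", "runs"). -/
structure Sys (P : Finset Pt) (v : ℤ → Pt) (I : Finset ℤ) : Prop where
  gp : GP P
  memL : ∀ i ∈ I, v i ∈ P
  memR : ∀ i ∈ I, v (i + 1) ∈ P
  lt : ∀ i ∈ I, (v i).1 < (v (i + 1)).1
  conv : ∀ i ∈ I, i + 1 ∈ I → sl v i < sl v (i + 1)
  inj : ∀ i ∈ I, ∀ j ∈ I, sl v i = sl v j → i = j
  wait : ∀ i j : ℤ, i - 1 ∈ I → i ∈ I → j - 1 ∈ I → j ∈ I → v i = v j →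
    sl v (i - 1) ≤ sl v j → sl v (j - 1) ≤ sl v i → i = j

/-- first edges of runs -/
def starts (I : Finset ℤ) : Finset ℤ := I.filter fun i => i - 1 ∉ I

/-- number of runs -/
def nr (I : Finset ℤ) : ℕ := #(starts I)

/-- all edges `i, …, j-1` belong to `I` -/
def Seg (I : Finset ℤ) (i j : ℤ) : Prop := ∀ l : ℤ, i ≤ l → l < j → l ∈ I

/-- first edge of the run of `i` (for `i ∈ I`) -/
def root (I : Finset ℤ) (i : ℤ) : ℤ :=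
  if hne : ((starts I).filter fun j => j ≤ i).Nonempty then
    ((starts I).filter fun j => j ≤ i).max' hne else i

/-- edges with both ends labelled `k` -/
def inside {κ : Type} (c : Pt → κ) (k : κ) (v : ℤ → Pt) (I : Finset ℤ) : Finset ℤ :=
  I.filter fun i => c (v i) = k ∧ c (v (i + 1)) = k

/-- edges whose ends have different labels -/
def cut {κ : Type} (c : Pt → κ) (v : ℤ → Pt) (I : Finset ℤ) : Finset ℤ :=
  I.filter fun i => c (v i) ≠ c (v (i + 1))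

/-- points labelled `k` -/
def part {κ : Type} (c : Pt → κ) (k : κ) (P : Finset Pt) : Finset Pt := P.filter fun p => c p = k

/-- level property: the number of points of `B` below an edge inside `B` only changes at edges
with exactly one end in `B` -/
def Lv (P : Finset Pt) (v : ℤ → Pt) (I : Finset ℤ) : Prop :=
  ∀ B ⊆ P, ∀ i ∈ I, ∀ j ∈ I, v i ∈ B → v (i + 1) ∈ B → v j ∈ B → v (j + 1) ∈ B →
    sl v i ≤ sl v j →
    |(rk B (sl v i) (v (i + 1)) : ℝ) - rk B (sl v j) (v (j + 1))| ≤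
      #(I.filter fun l => sl v i ≤ sl v l ∧ sl v l ≤ sl v j ∧ ¬ (v l ∈ B ↔ v (l + 1) ∈ B))

/-- at most `lam^2 d` points and at most `u lam d^2` runs -/
structure Cfg0 (lam d u : ℝ) (P : Finset Pt) (v : ℤ → Pt) (I : Finset ℤ) : Prop where
  sys : Sys P v I
  cardP : (#P : ℝ) ≤ lam ^ 2 * d
  runs : (nr I : ℝ) ≤ u * lam * d ^ 2

/-- an (almost) extremal configuration: moreover at least `lam^2 d^2 / u` good edges -/
structure Cfg (lam d u : ℝ) (P : Finset Pt) (v : ℤ → Pt) (I G : Finset ℤ) : Prop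
    extends Cfg0 lam d u P v I where
  sub : G ⊆ I
  big : lam ^ 2 * d ^ 2 / u ≤ (#G : ℝ)

/-- labels of edges monotone in a real key (the slope) -/
def Mono (σ : ℤ → ℝ) (I : Finset ℤ) (cl : ℤ → ℕ) : Prop :=
  ∀ i ∈ I, ∀ j ∈ I, σ i ≤ σ j → cl i ≤ cl j

/-- labels constant along runs -/
def Link (I : Finset ℤ) (cl : ℤ → ℕ) : Prop := ∀ i ∈ I, i + 1 ∈ I → cl i = cl (i + 1)

/-- `lo c`, `hi c` are the least and largest key in class `c` -/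
structure Hull (σ : ℤ → ℝ) (I : Finset ℤ) (cl : ℤ → ℕ) (lo hi : ℕ → ℝ) : Prop where
  lo_le : ∀ i ∈ I, lo (cl i) ≤ σ i
  le_hi : ∀ i ∈ I, σ i ≤ hi (cl i)
  lo_mem : ∀ i ∈ I, ∃ j ∈ I, cl j = cl i ∧ σ j = lo (cl i)
  hi_mem : ∀ i ∈ I, ∃ j ∈ I, cl j = cl i ∧ σ j = hi (cl i)

/-- projective coordinate of the direction `θ` seen from the reference direction `a` -/
def kap (a θ : ℝ) : ℝ := 1 / (a - θ)

/-- the window of edge `i` is `M`-narrow inside its block, in the coordinate `kap (σ j)`, for all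
reference edges `j` in earlier blocks except one block -/
def Narrow (σ : ℤ → ℝ) (I : Finset ℤ) (win blk : ℤ → ℕ) (M : ℝ) (i : ℤ) : Prop :=
  ∃ k : ℕ, ∀ j ∈ I, blk j < blk i → blk j ≠ k → ∃ z ∈ I, blk z = blk i ∧
    ∀ i' ∈ I, ∀ i'' ∈ I, win i' = win i → win i'' = win i →
      M * |kap (σ j) (σ i') - kap (σ j) (σ i'')| ≤ |kap (σ j) (σ z) - kap (σ j) (σ i')|

/-- output of the analysis at level `B`: windows and blocks of time -/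
structure Win (v : ℤ → Pt) (I G : Finset ℤ) (win blk : ℤ → ℕ) (r K ρ M : ℝ) : Prop where
  mono : Mono (sl v) I win
  monoB : Mono (sl v) I blk
  same : ∀ i ∈ I, ∀ j ∈ I, win i = win j → blk i = blk j
  bdd : ∀ i ∈ I, (win i : ℝ) ≤ r
  few : ∀ p : Pt, (#((G.filter fun i => v i = p).image win) : ℝ) ≤ K
  spread : ∀ (p : Pt) (β : ℕ), (#(G.filter fun i => v i = p ∧ blk i = β) : ℝ) ≤ ρ
  narrow : ∀ i ∈ G, Narrow (sl v) I win blk M i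

/-- the configuration at level `B₂`: direction classes, constant along runs, and one weight
`gam` dominating the good out-degrees of all points -/
structure B2 (lam d u η : ℝ) (P : Finset Pt) (v : ℤ → Pt) (I G : Finset ℤ) (cl : ℤ → ℕ)
    (lo hi gam : ℕ → ℝ) : Prop extends Cfg lam d u P v I G where
  mono : Mono (sl v) I cl
  link : Link I cl
  hull : Hull (sl v) I cl lo hi
  nonneg : ∀ c, 0 ≤ gam c
  atom : ∀ c, gam c ≤ η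
  total : ∑ c ∈ I.image cl, gam c ≤ u
  dom : ∀ (p : Pt) (c : ℕ), (#(G.filter fun i => v i = p ∧ cl i = c) : ℝ) ≤ d * gam c

/-- cherries (pairs of good edges leaving the same point) with a property -/
def cher (v : ℤ → Pt) (G : Finset ℤ) (Q : ℤ → ℤ → Prop) : Finset (ℤ × ℤ) :=
  (G ×ˢ G).filter fun x => v x.1 = v x.2 ∧ Q x.1 x.2

/-- the `3 × 3` block of rank boxes around `p` -/
def zbox (P : Finset Pt) (θ₁ W₁ θ₂ W₂ : ℝ) (p : Pt) : Finset Pt :=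
  P.filter fun z => |st P θ₁ W₁ z - st P θ₁ W₁ p| ≤ 1 ∧ |st P θ₂ W₂ z - st P θ₂ W₂ p| ≤ 1

/-- absolute rank difference -/
def dr (P : Finset Pt) (θ : ℝ) (p q : Pt) : ℝ := |(rk P θ q : ℝ) - rk P θ p|

/-! ### masses for the analytic part (`ε` is `1` or `-1`) -/

/-- one-sided weight of directions -/
def mG (C : Finset ℕ) (gam κ : ℕ → ℝ) (c : ℕ) (ε w : ℝ) : ℝ :=
  ∑ c' ∈ C.filter (fun c' => 0 ≤ ε * (κ c' - κ c) ∧ ε * (κ c' - κ c) ≤ w), gam c'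

/-- two-sided weight of directions -/
def mG2 (C : Finset ℕ) (gam κ : ℕ → ℝ) (c : ℕ) (w : ℝ) : ℝ :=
  ∑ c' ∈ C.filter (fun c' => |κ c' - κ c| ≤ w), gam c'

/-- one-sided number of points -/
def mP (P : Finset Pt) (F : Pt → ℝ) (p : Pt) (ε ρ : ℝ) : ℝ :=
  #(P.filter fun q => 0 ≤ ε * (F q - F p) ∧ ε * (F q - F p) ≤ ρ)

/-- two-sided number of points -/
def mP2 (P : Finset Pt) (F : Pt → ℝ) (p : Pt) (ρ : ℝ) : ℝ :=
  #(P.filter fun q => |F q - F p| ≤ ρ)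

/-- number of points in a box -/
def mB (P : Finset Pt) (F F' : Pt → ℝ) (p : Pt) (ρ ρ' : ℝ) : ℝ :=
  #(P.filter fun q => |F q - F p| ≤ ρ ∧ |F' q - F' p| ≤ ρ')

/-- the coordinate `X + k Y` -/
def xc (X Y : Pt → ℝ) (k : ℝ) (p : Pt) : ℝ := X p + k * Y p

/-- a sign -/
def Sg (ε : ℝ) : Prop := ε = 1 ∨ ε = -1

/-- witness radii at mass levels `g` (directions) and `m` (points) -/
def Wit (P : Finset Pt) (X Y : Pt → ℝ) (C : Finset ℕ) (gam κ : ℕ → ℝ) (s U : ℝ)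
    (p : Pt) (c : ℕ) (g m ε₁ ε₂ : ℝ) : Prop :=
  ∃ w ρ : ℝ, 0 ≤ w ∧ 0 ≤ ρ ∧ g / U ≤ mG C gam κ c ε₁ w ∧ mG C gam κ c ε₁ w ≤ g ∧
    m * s / U ≤ mP P Y p ε₂ ρ ∧ mP P Y p ε₂ ρ ≤ m * s ∧
    g * m * s / U ≤ mP P (xc X Y (κ c)) p (-(ε₁ * ε₂)) (w * ρ) ∧
    mP P (xc X Y (κ c)) p (-(ε₁ * ε₂)) (w * ρ) ≤ U * g * m * s

/-- rank form of a witness: a point `q` on a run through `p` of class `z` -/
def RW (P : Finset Pt) (I : Finset ℤ) (cl : ℤ → ℕ) (lo hi gam : ℕ → ℝ) (s U : ℝ)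
    (a : ℕ) (p : Pt) (c : ℕ) (g m ε₁ ε₂ : ℝ) : Prop :=
  ∃ q ∈ P, ∃ z ∈ I.image cl, a < z ∧ 0 < ε₁ * ((z : ℝ) - c) ∧ 0 < ε₂ * (q.1 - p.1) ∧
    lo z ≤ slope p q ∧ slope p q ≤ hi z ∧
    g / U ≤ ∑ c' ∈ (I.image cl).filter (fun c' => min c z < c' ∧ c' < max c z), gam c' ∧
    ∑ c' ∈ (I.image cl).filter (fun c' => min c z ≤ c' ∧ c' ≤ max c z), gam c' ≤ g ∧
    m * s / U ≤ dr P (lo a) p q ∧ dr P (lo a) p q ≤ m * s / 2 ∧
    g * m * s / U ≤ dr P (lo c) p q ∧ dr P (lo c) p q ≤ U * g * m * s / 2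

/-- common part of the hypotheses of the analytic theorem -/
structure AnBase (A : ℕ) (U s : ℝ) (P : Finset Pt) (Y : Pt → ℝ) (C : Finset ℕ)
    (gam κ : ℕ → ℝ) (Gd : Pt → ℕ → Prop) : Prop where
  two_le : 2 ≤ U
  s_pos : 0 < s
  cardP : (#P : ℝ) ≤ s
  nonneg : ∀ c, 0 ≤ gam c
  atom : ∀ c, gam c ≤ 1 / U ^ A
  total : ∑ c ∈ C, gam c ≤ U
  inj : ∀ c ∈ C, ∀ c' ∈ C, κ c = κ c' → c = c'
  ties : ∀ y : ℝ, (#(P.filter fun q => Y q = y) : ℝ) ≤ s / U ^ A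
  memP : ∀ p c, Gd p c → p ∈ P
  memC : ∀ p c, Gd p c → c ∈ C
  mass : s / U ≤ ∑ p ∈ P, ∑ c ∈ C.filter (fun c => Gd p c), gam c

/-- hypotheses of the analytic theorem produced by the combinatorial part -/
structure AnLev (A : ℕ) (U s : ℝ) (P : Finset Pt) (X Y : Pt → ℝ) (C : Finset ℕ)
    (gam κ : ℕ → ℝ) (Gd : Pt → ℕ → Prop) : Prop where
  wit : ∀ p c, Gd p c → ∀ i j : ℕ, 1 ≤ i → i ≤ A → 1 ≤ j → j ≤ A → ∀ ε₁ ε₂ : ℝ, Sg ε₁ → Sg ε₂ →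
    Wit P X Y C gam κ s U p c (1 / U ^ i) (1 / U ^ j) ε₁ ε₂
  box : ∀ p c, Gd p c → ∀ i j : ℕ, 1 ≤ i → i ≤ A → 1 ≤ j → j ≤ A → ∀ ρ ρ' : ℝ,
    mP2 P Y p ρ ≤ s / U ^ i → mP2 P (xc X Y (κ c)) p ρ' ≤ s / U ^ j →
    mB P Y (xc X Y (κ c)) p ρ ρ' ≤ U * s / (U ^ i * U ^ j)

/-- two-sided form of `AnLev`, with floor `n = 1 / U ^ A` -/
structure AnTwo (n U s : ℝ) (P : Finset Pt) (X Y : Pt → ℝ) (C : Finset ℕ)
    (gam κ : ℕ → ℝ) (Gd : Pt → ℕ → Prop) : Prop where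
  h1 : ∀ p c, Gd p c → ∀ w ρ : ℝ, 0 ≤ w → 0 ≤ ρ →
    mG2 C gam κ c w * (mP2 P Y p ρ / s) ≤
      4 * U ^ 5 * max (mP2 P (xc X Y (κ c)) p (w * ρ) / s) n
  h2 : ∀ p c, Gd p c → ∀ w ρ : ℝ, 0 ≤ w → 0 ≤ ρ → mG2 C gam κ c w < 1 / U ^ 2 →
    mP2 P Y p ρ / s < 1 / U ^ 2 →
    mP2 P (xc X Y (κ c)) p (w * ρ) / s ≤
      2 * U ^ 5 * max (mG2 C gam κ c w) n * max (mP2 P Y p ρ / s) n
  balG : ∀ p c, Gd p c → ∀ ε w : ℝ, Sg ε → 0 ≤ w → mG C gam κ c ε w < 1 / U ^ 2 →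
    mG2 C gam κ c w ≤ 2 * U ^ 11 * max (mG C gam κ c ε w) n
  balY : ∀ p c, Gd p c → ∀ ε ρ : ℝ, Sg ε → 0 ≤ ρ → mP P Y p ε ρ / s < 1 / U ^ 2 →
    mP2 P Y p ρ / s ≤ 2 * U ^ 11 * max (mP P Y p ε ρ / s) n
  box : ∀ p c, Gd p c → ∀ ρ ρ' : ℝ, mP2 P Y p ρ / s ≤ 1 / U →
    mP2 P (xc X Y (κ c)) p ρ' / s ≤ 1 / U →
    mB P Y (xc X Y (κ c)) p ρ ρ' / s ≤
      U ^ 3 * max (mP2 P Y p ρ / s) n * max (mP2 P (xc X Y (κ c)) p ρ' / s) n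

/-- output of the anchoring step: two anchor directions `e₀, e₁`, a scale `ρ₀`, a set `Ω` -/
structure Anch (U s : ℝ) (P : Finset Pt) (Y : Pt → ℝ) (C : Finset ℕ)
    (gam κ : ℕ → ℝ) (Gd : Pt → ℕ → Prop) (Ω : Finset Pt) (e₀ e₁ : ℕ) (ρ₀ : ℝ) : Prop where
  sub : Ω ⊆ P
  big : s / U ^ 130 ≤ (#Ω : ℝ)
  lt : κ e₀ < κ e₁
  pos : 0 < ρ₀
  g0 : ∀ q ∈ Ω, Gd q e₀
  g1 : ∀ q ∈ Ω, Gd q e₁
  wt : ∀ q ∈ Ω, 1 / U ^ 40 ≤
    ∑ c ∈ C.filter (fun c => κ e₀ ≤ κ c ∧ κ c ≤ κ e₁ ∧ Gd q c), gam c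
  diam : ∀ q ∈ Ω, ∀ q' ∈ Ω, |Y q - Y q'| ≤ ρ₀
  halfY : ∀ q ∈ Ω, mP2 P Y q (ρ₀ / 2) / s < 1 / U ^ 2
  lowY : ∀ q ∈ Ω, 1 / U ^ 130 ≤ mP2 P Y q (ρ₀ / 16) / s
  halfG : ∀ q ∈ Ω, ∀ c, Gd q c → κ e₀ ≤ κ c → κ c ≤ κ e₁ →
    mG2 C gam κ c ((κ e₁ - κ e₀) / 2) < 1 / U ^ 2

/-- the common profile `f` (already truncated below at `n`), in units `Δ = κ e₁ - κ e₀`, `ρ₀` -/
structure Prof (K n s : ℝ) (P : Finset Pt) (Y : Pt → ℝ) (C : Finset ℕ)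
    (gam κ : ℕ → ℝ) (Gd : Pt → ℕ → Prop) (Ω : Finset Pt) (e₀ e₁ : ℕ) (ρ₀ : ℝ)
    (f : ℝ → ℝ) : Prop where
  eq : ∀ r, f r = max (mG2 C gam κ e₀ (r * (κ e₁ - κ e₀))) n
  dbl : ∀ r, 0 ≤ r → f (8 * r) ≤ K * f r
  sm : ∀ r r', 0 ≤ r → 0 ≤ r' → f r * f r' ≤ K * f (r * r')
  upY : ∀ q ∈ Ω, ∀ r, 0 ≤ r → mP2 P Y q (r * ρ₀) / s ≤ K * f r
  loY : ∀ q ∈ Ω, ∀ r, 0 ≤ r → f r ≤ K * max (mP2 P Y q (r * ρ₀) / s) n
  upG : ∀ q ∈ Ω, ∀ c, Gd q c → κ e₀ ≤ κ c → κ c ≤ κ e₁ → ∀ r, 0 ≤ r →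
    mG2 C gam κ c (r * (κ e₁ - κ e₀)) ≤ K * f r
  loG : ∀ q ∈ Ω, ∀ c, Gd q c → κ e₀ ≤ κ c → κ c ≤ κ e₁ → ∀ r, 0 ≤ r →
    f r ≤ K * max (mG2 C gam κ c (r * (κ e₁ - κ e₀))) n

/-- discretised data for the projection theorem: small coverings at scale `δ` -/
structure Disc (K D δ s : ℝ) (Ω : Finset Pt) (X Y : Pt → ℝ) (C : Finset ℕ)
    (τ κ : ℕ → ℝ) (Gd : Pt → ℕ → Prop) : Prop where
  two_le : 2 ≤ K
  D_pos : 0 < D
  δ_pos : 0 < δ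
  s_pos : 0 < s
  card_le : (#Ω : ℝ) ≤ s
  le_card : s / K ≤ (#Ω : ℝ)
  nonneg : ∀ c, 0 ≤ τ c
  total : ∑ c ∈ C, τ c ≤ K
  k0 : ∀ c ∈ C, 0 ≤ κ c
  k1 : ∀ c ∈ C, κ c ≤ 1
  wt : ∀ p ∈ Ω, 1 / K ≤ ∑ c ∈ C.filter (fun c => Gd p c), τ c
  covY : (#(Ω.image fun p => ⌊Y p / δ⌋) : ℝ) ≤ D
  covX : (#(Ω.image fun p => ⌊X p / δ⌋) : ℝ) ≤ D
  covXY : (#(Ω.image fun p => ⌊(X p + Y p) / δ⌋) : ℝ) ≤ D
  covC : ∀ c ∈ C, (#((Ω.filter fun p => Gd p c).image fun p => ⌊xc X Y (κ c) p / δ⌋) : ℝ) ≤ D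
  cell : ∀ p ∈ Ω, mB Ω X Y p δ δ ≤ K * s / D ^ 2

/-- sums of two differences of directions of `C` -/
def Lin (C : Finset ℕ) (κ : ℕ → ℝ) (x : ℝ) : Prop :=
  ∃ c₁ ∈ C, ∃ c₂ ∈ C, ∃ c₃ ∈ C, ∃ c₄ ∈ C, x = κ c₁ - κ c₂ + (κ c₃ - κ c₄)

/-- number of collisions of `Y a + w * Y b` at scale `t` -/
def coll (Ω : Finset Pt) (Y : Pt → ℝ) (w t : ℝ) : ℝ :=
  #(((Ω ×ˢ Ω) ×ˢ (Ω ×ˢ Ω)).filter fun x =>
    |Y x.1.1 + w * Y x.1.2 - (Y x.2.1 + w * Y x.2.2)| ≤ t)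

/-- weighted energy of `p κ c + q κ c'` at scale `t` -/
def energy (C : Finset ℕ) (τ κ : ℕ → ℝ) (p q t : ℝ) : ℝ :=
  ∑ x ∈ ((C ×ˢ C) ×ˢ (C ×ˢ C)).filter (fun x =>
      |p * κ x.1.1 + q * κ x.1.2 - (p * κ x.2.1 + q * κ x.2.2)| ≤ t),
    τ x.1.1 * τ x.1.2 * (τ x.2.1 * τ x.2.2)

end Crest.Agent.R51
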