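import Crest.Agent.R51.Stmts

/-!
# Row 51: expansion of the set of directions (`ExpandStmt`)
-/

set_option autoImplicit false

noncomputable section

namespace Crest.Agent.R51

open Finset Classical

/-- the quotient set -/
def ExpandQ (C : Finset ℕ) (κ : ℕ → ℝ) (θ x : ℝ) : Prop :=
  ∃ a ∈ C, ∃ b ∈ C, ∃ a' ∈ C, ∃ b' ∈ C, θ ≤ |κ a' - κ b'| ∧ x = (κ a - κ b) / (κ a' - κ b')

/-- the part of the energy coming from quadruples with distant second entries -/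
def expandFar (C : Finset ℕ) (τ κ : ℕ → ℝ) (θ p q t : ℝ) : ℝ :=
  ∑ x ∈ ((C ×ˢ C) ×ˢ (C ×ˢ C)).filter (fun x =>
      |p * κ x.1.1 + q * κ x.1.2 - (p * κ x.2.1 + q * κ x.2.2)| ≤ t ∧ θ ≤ |κ x.2.2 - κ x.1.2|),
    τ x.1.1 * τ x.1.2 * (τ x.2.1 * τ x.2.2)

theorem expand_F_nonneg {C : Finset ℕ} {τ κ : ℕ → ℝ} {F : ℝ → ℝ} (hC : C.Nonempty)
    (hτ : ∀ c, 0 ≤ τ c) (hF : ∀ c ∈ C, ∀ r, 0 ≤ r → mG2 C τ κ c r ≤ F r) {r : ℝ} (hr : 0 ≤ r) :
    0 ≤ F r := by
  obtain ⟨c, hc⟩ := hC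
  exact (Finset.sum_nonneg fun c _ => hτ c).trans (hF c hc r hr)

theorem expand_interval {C : Finset ℕ} {τ κ : ℕ → ℝ} {F : ℝ → ℝ} (hC : C.Nonempty)
    (hτ : ∀ c, 0 ≤ τ c) (hF : ∀ c ∈ C, ∀ r, 0 ≤ r → mG2 C τ κ c r ≤ F r) {p w t : ℝ}
    (hw : 0 < w) (hp : w ≤ |p|) (ht : 0 ≤ t) (y : ℝ) :
    ∑ d ∈ C.filter (fun d => |y - p * κ d| ≤ t), τ d ≤ F (2 * t / w) := by
  have hr : 0 ≤ 2 * t / w := by positivity
  rcases (C.filter (fun d => |y - p * κ d| ≤ t)).eq_empty_or_nonempty with he | ⟨c, hc⟩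
  · rw [he, Finset.sum_empty]
    exact expand_F_nonneg hC hτ hF hr
  · rw [Finset.mem_filter] at hc
    refine le_trans ?_ (hF c hc.1 _ hr)
    refine Finset.sum_le_sum_of_subset_of_nonneg (fun d hd => ?_) fun d _ _ => hτ d
    rw [Finset.mem_filter] at hd ⊢
    refine ⟨hd.1, ?_⟩
    rw [le_div_iff₀ hw]
    have h1 : |p| * |κ d - κ c| ≤ 2 * t := by
      rw [← abs_mul, show p * (κ d - κ c) = (y - p * κ c) - (y - p * κ d) by ring]
      have := abs_sub (y - p * κ c) (y - p * κ d)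
      linarith [hc.2, hd.2]
    have h2 := mul_le_mul_of_nonneg_right hp (abs_nonneg (κ d - κ c))
    linarith

theorem expand_near {C : Finset ℕ} {τ κ : ℕ → ℝ} {F : ℝ → ℝ} (hC : C.Nonempty)
    (hτ : ∀ c, 0 ≤ τ c) (hF : ∀ c ∈ C, ∀ r, 0 ≤ r → mG2 C τ κ c r ≤ F r) {θ p q w t : ℝ}
    (hθ : 0 ≤ θ) (hw : 0 < w) (hp : w ≤ |p|) (ht : 0 ≤ t) :
    energy C τ κ p q t ≤ (∑ c ∈ C, τ c) ^ 2 * (F θ * F (2 * t / w)) + expandFar C τ κ θ p q t := by
  have hF' : 0 ≤ F (2 * t / w) := expand_F_nonneg hC hτ hF (by positivity)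
  have key : ∑ x ∈ ((C ×ˢ C) ×ˢ (C ×ˢ C)).filter (fun x =>
      |p * κ x.1.1 + q * κ x.1.2 - (p * κ x.2.1 + q * κ x.2.2)| ≤ t ∧ ¬ θ ≤ |κ x.2.2 - κ x.1.2|),
      τ x.1.1 * τ x.1.2 * (τ x.2.1 * τ x.2.2) ≤
      (∑ c ∈ C, τ c) ^ 2 * (F θ * F (2 * t / w)) := by
    rw [Finset.sum_filter, Finset.sum_product, Finset.sum_product, sq, Finset.sum_mul_sum,
      Finset.sum_mul]
    refine Finset.sum_le_sum fun c hc => ?_
    rw [Finset.sum_mul]
    refine Finset.sum_le_sum fun c' hc' => ?_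
    rw [Finset.sum_product_right]
    have hcc : 0 ≤ τ c * τ c' := mul_nonneg (hτ c) (hτ c')
    calc _ ≤ ∑ d' ∈ C, (τ c * τ c' * F (2 * t / w)) * (if |κ d' - κ c'| ≤ θ then τ d' else 0) := by
          refine Finset.sum_le_sum fun d' hd' => ?_
          by_cases hn : θ ≤ |κ d' - κ c'|
          · simp only [hn, not_true, and_false, if_false, Finset.sum_const_zero]
            refine mul_nonneg (mul_nonneg hcc hF') ?_
            split_ifs
            · exact hτ d'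
            · exact le_rfl
          · have h1 := expand_interval hC hτ hF hw hp ht (p * κ c + q * κ c' - q * κ d')
            rw [if_pos (not_le.mp hn).le]
            simp only [hn, not_false_iff, and_true]
            rw [Finset.sum_filter] at h1
            calc _ = (τ c * τ c' * τ d') * ∑ d ∈ C,
                  (if |p * κ c + q * κ c' - q * κ d' - p * κ d| ≤ t then τ d else 0) := by
                  rw [Finset.mul_sum]
                  refine Finset.sum_congr rfl fun d _ => ?_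
                  rw [show p * κ c + q * κ c' - (p * κ d + q * κ d') =
                    p * κ c + q * κ c' - q * κ d' - p * κ d by ring]
                  split_ifs
                  · ring
                  · ring
              _ ≤ (τ c * τ c' * τ d') * F (2 * t / w) :=
                  mul_le_mul_of_nonneg_left h1 (mul_nonneg hcc (hτ d'))
              _ = _ := by ring
      _ = (τ c * τ c' * F (2 * t / w)) * mG2 C τ κ c' θ := by
          rw [← Finset.mul_sum, mG2, Finset.sum_filter]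
      _ ≤ (τ c * τ c' * F (2 * t / w)) * F θ :=
          mul_le_mul_of_nonneg_left (hF c' hc' θ hθ) (mul_nonneg hcc hF')
      _ = _ := by ring
  rw [energy, ← Finset.sum_filter_add_sum_filter_not _
    (fun x : (ℕ × ℕ) × (ℕ × ℕ) => θ ≤ |κ x.2.2 - κ x.1.2|), Finset.filter_filter,
    Finset.filter_filter, add_comm]
  exact add_le_add key le_rfl

/-- a far quadruple gives an element of the quotient set close to `q / p` -/
theorem expand_close {θ p q t a b a' b' : ℝ} (hθ : 0 < θ) (hp : θ ≤ |p|)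
    (h1 : |p * a + q * b - (p * a' + q * b')| ≤ t) (h2 : θ ≤ |b' - b|) :
    |(a - a') / (b' - b) - q / p| ≤ t / θ ^ 2 := by
  have hp0 : p ≠ 0 := abs_pos.mp (hθ.trans_le hp)
  have hb0 : b' - b ≠ 0 := abs_pos.mp (hθ.trans_le h2)
  have ht : 0 ≤ t := (abs_nonneg _).trans h1
  rw [show (a - a') / (b' - b) - q / p = (p * a + q * b - (p * a' + q * b')) / (p * (b' - b)) by
    field_simp; ring, abs_div, abs_mul]
  refine div_le_div₀ ht h1 (by positivity) ?_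
  rw [sq]
  exact mul_le_mul hp h2 hθ.le (abs_nonneg _)

theorem expand_dense {Q : ℝ → Prop} {δ : ℝ} (hδ : 0 < δ) (h0 : Q 0)
    (h : ∀ x, Q x → -(2 * δ) ≤ x → x ≤ 1 + 2 * δ → ∀ ε : ℝ, ε = 0 ∨ ε = 1 →
      ∃ x', Q x' ∧ |x' - (x + ε) / 2| < δ) (z : ℝ) (hz0 : 0 ≤ z) (hz1 : z ≤ 1) :
    ∃ x, Q x ∧ -(2 * δ) ≤ x ∧ x ≤ 1 + 2 * δ ∧ |x - z| ≤ 3 * δ := by
  have key : ∀ n : ℕ, ∀ z : ℝ, 0 ≤ z → z ≤ 1 →
      ∃ x, Q x ∧ -(2 * δ) ≤ x ∧ x ≤ 1 + 2 * δ ∧ |x - z| ≤ (1 / 2) ^ n + 2 * δ := by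
    intro n
    induction n with
    | zero =>
      intro z hz0 hz1
      refine ⟨0, h0, by linarith, by linarith, ?_⟩
      rw [abs_le]; constructor <;> norm_num <;> linarith
    | succ n ih =>
      intro z hz0 hz1
      obtain ⟨ε, hε, h1, h2⟩ : ∃ ε : ℝ, (ε = 0 ∨ ε = 1) ∧ 0 ≤ 2 * z - ε ∧ 2 * z - ε ≤ 1 := by
        rcases le_total z (1 / 2) with h | h
        · exact ⟨0, Or.inl rfl, by linarith, by linarith⟩
        · exact ⟨1, Or.inr rfl, by linarith, by linarith⟩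
      obtain ⟨x, hx, hx1, hx2, hx3⟩ := ih _ h1 h2
      obtain ⟨x', hx', hx4⟩ := h x hx hx1 hx2 ε hε
      rw [abs_lt] at hx4
      rw [abs_le] at hx3
      have hε' : 0 ≤ ε ∧ ε ≤ 1 := by rcases hε with rfl | rfl <;> norm_num
      refine ⟨x', hx', by linarith, by linarith, ?_⟩
      rw [abs_le, pow_succ]
      constructor <;> linarith
  obtain ⟨n, hn⟩ := exists_pow_lt_of_lt_one hδ (by norm_num : (1 / 2 : ℝ) < 1)
  obtain ⟨x, hx, hx1, hx2, hx3⟩ := key n z hz0 hz1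
  exact ⟨x, hx, hx1, hx2, by linarith⟩

theorem expand_aux (C : Finset ℕ) (τ κ : ℕ → ℝ) (F : ℝ → ℝ) (θ : ℝ) (hC : C.Nonempty)
    (hτ : ∀ c, 0 ≤ τ c) (hκ0 : ∀ c ∈ C, 0 ≤ κ c) (hκ1 : ∀ c ∈ C, κ c ≤ 1)
    (hF : ∀ c ∈ C, ∀ r, 0 ≤ r → mG2 C τ κ c r ≤ F r) (hθ : 0 < θ) (hθ1 : θ ≤ 1 / 10)
    (hT : F θ < ∑ c ∈ C, τ c) :
    ∃ p q w : ℝ, Lin C κ p ∧ Lin C κ q ∧ θ ≤ w ∧ w ≤ 1 ∧ |p| ≤ 2 * w ∧ |q| ≤ 3 * w ∧
      energy C τ κ p q (θ ^ 8) ≤ (∑ c ∈ C, τ c) ^ 2 * (F θ * F (2 * θ ^ 8 / w)) +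
        30 * θ ^ 6 * (∑ c ∈ C, τ c) ^ 4 := by
  have h6 : 0 < θ ^ 6 := by positivity
  have h6' : θ ^ 6 ≤ 1 / 10 := by
    calc θ ^ 6 ≤ θ ^ 1 := pow_le_pow_of_le_one hθ.le (by linarith) (by norm_num)
      _ ≤ 1 / 10 := by rwa [pow_one]
  have h8 : θ ^ 8 / θ ^ 2 = θ ^ 6 := by field_simp
  have hT0 : 0 ≤ ∑ c ∈ C, τ c := Finset.sum_nonneg fun c _ => hτ c
  have hv1 : ∀ a ∈ C, ∀ b ∈ C, |κ a - κ b| ≤ 1 := fun a ha b hb => by
    rw [abs_le]; constructor <;> linarith [hκ0 a ha, hκ0 b hb, hκ1 a ha, hκ1 b hb]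
  have hQ0 : ExpandQ C κ θ 0 := by
    obtain ⟨c, hc⟩ := hC
    by_contra hn
    have h1 : C.filter (fun c' => |κ c' - κ c| ≤ θ) = C := by
      refine Finset.filter_true_of_mem fun c' hc' => ?_
      by_contra h2
      exact hn ⟨c, hc, c, hc, c', hc', c, hc, (not_le.mp h2).le, by simp⟩
    have h2 := hF c hc θ hθ.le
    rw [mG2, h1] at h2
    linarith
  by_cases hgap : ∀ x, ExpandQ C κ θ x → -(2 * (3 * θ ^ 6)) ≤ x → x ≤ 1 + 2 * (3 * θ ^ 6) →
      ∀ ε : ℝ, ε = 0 ∨ ε = 1 → ∃ x', ExpandQ C κ θ x' ∧ |x' - (x + ε) / 2| < 3 * θ ^ 6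
  · -- dense case
    set N : ℕ := ⌊1 / (21 * θ ^ 6)⌋₊ + 1 with hN
    have hz : ∀ k : ℕ, ∃ x : ℝ, k < N → ExpandQ C κ θ x ∧ |x| ≤ 2 ∧
        |x - 21 * θ ^ 6 * k| ≤ 9 * θ ^ 6 := fun k => by
      by_cases hk : k < N
      · have hk1 : (k : ℝ) ≤ 1 / (21 * θ ^ 6) :=
          (Nat.le_floor_iff (by positivity)).mp (by omega)
        rw [le_div_iff₀ (by positivity)] at hk1
        obtain ⟨x, hx, hx1, hx2, hx3⟩ := expand_dense (by positivity) hQ0 hgap (21 * θ ^ 6 * k)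
          (by positivity) (by linarith)
        refine ⟨x, fun _ => ⟨hx, ?_, by linarith⟩⟩
        rw [abs_le]; constructor <;> linarith
      · exact ⟨0, fun h => absurd h hk⟩
    choose x hx using hz
    have hz' : ∀ k : ℕ, ∃ a b a' b' : ℕ, k < N → a ∈ C ∧ b ∈ C ∧ a' ∈ C ∧ b' ∈ C ∧
        θ ≤ |κ a' - κ b'| ∧ x k = (κ a - κ b) / (κ a' - κ b') := fun k => by
      by_cases hk : k < N
      · obtain ⟨a, ha, b, hb, a', ha', b', hb', h1, h2⟩ := (hx k hk).1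
        exact ⟨a, b, a', b', fun _ => ⟨ha, hb, ha', hb', h1, h2⟩⟩
      · exact ⟨0, 0, 0, 0, fun h => absurd h hk⟩
    choose a b a' b' hab using hz'
    have hsum : ∑ k ∈ Finset.range N,
        expandFar C τ κ θ (κ (a' k) - κ (b' k)) (κ (a k) - κ (b k)) (θ ^ 8) ≤
        (∑ c ∈ C, τ c) ^ 4 := by
      have e4 : (∑ c ∈ C, τ c) ^ 4 = ∑ y ∈ (C ×ˢ C) ×ˢ (C ×ˢ C),
          τ y.1.1 * τ y.1.2 * (τ y.2.1 * τ y.2.2) := by
        have e2 : (∑ c ∈ C, τ c) ^ 2 = ∑ y ∈ C ×ˢ C, τ y.1 * τ y.2 := by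
          rw [sq, Finset.sum_mul_sum, Finset.sum_product]
        rw [show (4 : ℕ) = 2 + 2 from rfl, pow_add, e2, Finset.sum_mul_sum, Finset.sum_product
          (C ×ˢ C) (C ×ˢ C)]
      simp only [expandFar, Finset.sum_filter]
      rw [Finset.sum_comm, e4]
      refine Finset.sum_le_sum fun y _ => ?_
      have hW : 0 ≤ τ y.1.1 * τ y.1.2 * (τ y.2.1 * τ y.2.2) :=
        mul_nonneg (mul_nonneg (hτ _) (hτ _)) (mul_nonneg (hτ _) (hτ _))
      rw [← Finset.sum_filter, Finset.sum_const, nsmul_eq_mul]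
      refine mul_le_of_le_one_left hW ?_
      rw [Nat.cast_le_one, Finset.card_le_one]
      intro k hk l hl
      rw [Finset.mem_filter, Finset.mem_range] at hk hl
      have h1 := expand_close hθ (hab k hk.1).2.2.2.2.1 hk.2.1 hk.2.2
      have h2 := expand_close hθ (hab l hl.1).2.2.2.2.1 hl.2.1 hl.2.2
      rw [← (hab k hk.1).2.2.2.2.2, h8, abs_le] at h1
      rw [← (hab l hl.1).2.2.2.2.2, h8, abs_le] at h2
      have h3 := (hx k hk.1).2.2
      have h4 := (hx l hl.1).2.2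
      rw [abs_le] at h3 h4
      by_contra hne
      rcases lt_or_gt_of_ne hne with hlt | hlt
      · have : (k : ℝ) + 1 ≤ l := by exact_mod_cast hlt
        nlinarith
      · have : (l : ℝ) + 1 ≤ k := by exact_mod_cast hlt
        nlinarith
    obtain ⟨k, hk, hk2⟩ : ∃ k ∈ Finset.range N,
        expandFar C τ κ θ (κ (a' k) - κ (b' k)) (κ (a k) - κ (b k)) (θ ^ 8) ≤
          21 * θ ^ 6 * (∑ c ∈ C, τ c) ^ 4 := by
      refine Finset.exists_le_of_sum_le ⟨0, by simp [hN]⟩ (hsum.trans ?_)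
      rw [Finset.sum_const, Finset.card_range, nsmul_eq_mul, ← mul_assoc]
      refine le_mul_of_one_le_left (by positivity) ?_
      have h1 : 1 / (21 * θ ^ 6) < (N : ℝ) := by
        rw [hN]; push_cast; exact Nat.lt_floor_add_one _
      rw [div_lt_iff₀ (by positivity)] at h1
      exact h1.le
    rw [Finset.mem_range] at hk
    obtain ⟨ha, hb, ha', hb', h1, h2⟩ := hab k hk
    have hw : 0 < |κ (a' k) - κ (b' k)| := hθ.trans_le h1
    refine ⟨κ (a' k) - κ (b' k), κ (a k) - κ (b k), |κ (a' k) - κ (b' k)|,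
      ⟨_, ha', _, hb', _, ha, _, ha, by ring⟩, ⟨_, ha, _, hb, _, ha, _, ha, by ring⟩, h1,
      hv1 _ ha' _ hb', by linarith, ?_, ?_⟩
    · have h3 := (hx k hk).2.1
      rw [h2, abs_div, div_le_iff₀ hw] at h3
      linarith
    · refine (expand_near hC hτ hF hθ.le hw le_rfl (by positivity)).trans (add_le_add le_rfl ?_)
      refine hk2.trans (mul_le_mul_of_nonneg_right (by linarith) (by positivity))
  · -- gap case
    push Not at hgap
    obtain ⟨x, ⟨a, ha, b, hb, a', ha', b', hb', h1, h2⟩, hx1, hx2, ε, hε, hx⟩ := hgap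
    have hw : 0 < |κ a' - κ b'| := hθ.trans_le h1
    have hv0 : κ a' - κ b' ≠ 0 := abs_pos.mp hw
    have hp : |2 * (κ a' - κ b')| = 2 * |κ a' - κ b'| := by rw [abs_mul, abs_two]
    refine ⟨2 * (κ a' - κ b'), κ a - κ b + ε * (κ a' - κ b'), |κ a' - κ b'|,
      ⟨_, ha', _, hb', _, ha', _, hb', by ring⟩, ?_, h1, hv1 _ ha' _ hb', hp.le, ?_, ?_⟩
    · rcases hε with rfl | rfl
      · exact ⟨_, ha, _, hb, _, ha, _, ha, by ring⟩
      · exact ⟨_, ha, _, hb, _, ha', _, hb', by ring⟩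
    · have h3 : |x| ≤ 2 := by rw [abs_le]; constructor <;> linarith
      rw [h2, abs_div, div_le_iff₀ hw] at h3
      have h4 : |ε * (κ a' - κ b')| ≤ |κ a' - κ b'| := by
        rcases hε with rfl | rfl <;> simp
      linarith [abs_add_le (κ a - κ b) (ε * (κ a' - κ b'))]
    · refine (expand_near hC hτ hF hθ.le hw (by linarith) (by positivity)).trans
        (add_le_add le_rfl ?_)
      rw [expandFar, Finset.filter_false_of_mem, Finset.sum_empty]
      · positivity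
      · rintro y hy ⟨h3, h4⟩
        simp only [Finset.mem_product] at hy
        have h5 := expand_close hθ (by linarith) h3 h4
        have h7 := hx _ ⟨_, hy.1.1, _, hy.2.1, _, hy.2.2, _, hy.1.2, h4, rfl⟩
        rw [h8, show (κ a - κ b + ε * (κ a' - κ b')) / (2 * (κ a' - κ b')) = (x + ε) / 2 by
          rw [h2]; field_simp] at h5
        linarith

theorem expand : ExpandStmt := expand_aux

end Crest.Agent.R51
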