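import Crest.Agent.R51.Stmts

/-!
# Row 51: the discretised projection theorem
-/

set_option autoImplicit false

noncomputable section

namespace Crest.Agent.R51

open Finset Classical

theorem Proj_card_quad (S : Finset Pt) (P : (Pt × Pt) × (Pt × Pt) → Prop) [DecidablePred P] :
    (#(((S ×ˢ S) ×ˢ (S ×ˢ S)).filter P) : ℝ) =
      ∑ b ∈ S, ∑ b' ∈ S, ∑ a ∈ S, (#(S.filter fun a' => P ((a, b), (a', b'))) : ℝ) := by
  simp only [card_filter, Nat.cast_sum, sum_product]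
  rw [sum_comm]
  refine sum_congr rfl fun b _ => ?_
  rw [sum_congr rfl fun a _ => sum_comm, sum_comm]

theorem Proj_sub {Ω Ω' : Finset Pt} (h : Ω' ⊆ Ω) (Y : Pt → ℝ) (p : Pt) (r : ℝ) :
    (#(Ω'.filter fun q => |Y q - Y p| ≤ r) : ℝ) ≤ mP2 Ω Y p r :=
  Nat.cast_le.2 (card_le_card (filter_subset_filter _ h))

theorem Proj_interval {Ω : Finset Pt} {Y : Pt → ℝ} {ρ B : ℝ} (hB : 0 ≤ B)
    (h : ∀ p ∈ Ω, (#(Ω.filter fun q => |Y q - Y p| ≤ 2 * ρ) : ℝ) ≤ B) (y : ℝ) :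
    (#(Ω.filter fun q => |y - Y q| ≤ ρ) : ℝ) ≤ B := by
  rcases (Ω.filter fun q => |y - Y q| ≤ ρ).eq_empty_or_nonempty with e | ⟨p, hp⟩
  · rw [e]; simpa using hB
  · obtain ⟨h1, h2⟩ := mem_filter.1 hp
    refine le_trans (Nat.cast_le.2 (card_le_card fun q hq => ?_)) (h p h1)
    obtain ⟨h3, h4⟩ := mem_filter.1 hq
    refine mem_filter.2 ⟨h3, ?_⟩
    rw [abs_le] at *
    constructor <;> linarith [h2.1, h2.2, h4.1, h4.2]

theorem Proj_near {Ω : Finset Pt} {Y : Pt → ℝ} {t r B B' : ℝ} (hB : 0 ≤ B)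
    (h : ∀ p ∈ Ω, (#(Ω.filter fun q => |Y q - Y p| ≤ 2 * t) : ℝ) ≤ B)
    (h' : ∀ p ∈ Ω, (#(Ω.filter fun q => |Y q - Y p| ≤ r) : ℝ) ≤ B') (v : ℝ) :
    (#(((Ω ×ˢ Ω) ×ˢ (Ω ×ˢ Ω)).filter fun x =>
      |Y x.1.1 + v * Y x.1.2 - (Y x.2.1 + v * Y x.2.2)| ≤ t ∧ |Y x.2.2 - Y x.1.2| ≤ r) : ℝ) ≤
      #Ω * (B' * (#Ω * B)) := by
  rw [Proj_card_quad, ← nsmul_eq_mul]
  refine sum_le_card_nsmul _ _ _ fun b hb => ?_
  have h1 : ∀ b' ∈ Ω, ∑ a ∈ Ω, (#(Ω.filter fun a' =>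
      |Y a + v * Y b - (Y a' + v * Y b')| ≤ t ∧ |Y b' - Y b| ≤ r) : ℝ) ≤
      if |Y b' - Y b| ≤ r then #Ω * B else 0 := fun b' _ => by
    split_ifs with e
    · rw [← nsmul_eq_mul]
      refine sum_le_card_nsmul _ _ _ fun a _ => ?_
      refine le_trans (Nat.cast_le.2 (card_le_card fun q hq => ?_))
        (Proj_interval hB h (Y a + v * Y b - v * Y b'))
      obtain ⟨h3, h4, -⟩ := mem_filter.1 hq
      refine mem_filter.2 ⟨h3, ?_⟩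
      convert h4 using 2
      ring
    · simp [e]
  refine (sum_le_sum h1).trans ?_
  rw [← sum_filter, sum_const, nsmul_eq_mul]
  exact mul_le_mul_of_nonneg_right (h' b hb) (by positivity)

theorem Proj_close {Ω : Finset Pt} {Y : Pt → ℝ} {r B : ℝ}
    (h : ∀ p ∈ Ω, (#(Ω.filter fun q => |Y q - Y p| ≤ r) : ℝ) ≤ B) :
    (#(((Ω ×ˢ Ω) ×ˢ (Ω ×ˢ Ω)).filter fun x => |Y x.2.1 - Y x.1.1| ≤ r) : ℝ) ≤
      #Ω * (#Ω * (#Ω * B)) := by
  rw [Proj_card_quad]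
  simp only [← nsmul_eq_mul]
  exact sum_le_card_nsmul _ _ _ fun b _ => sum_le_card_nsmul _ _ _ fun b' _ =>
    sum_le_card_nsmul _ _ _ fun a ha => h a ha

theorem Proj_far {ι Z : Type} (W : Finset ι) (μ val : ι → ℝ) (hμ : ∀ x, 0 ≤ μ x) (Q : Finset Z)
    (α β : Z → ℝ) {t r η B : ℝ} (G : Z → Prop) (hr : 0 < r) (ht : 2 * t ≤ r * η)
    (hB : 0 ≤ B) (hN : ∀ x₀ ∈ W, ∑ x ∈ W.filter (fun x => |val x₀ - val x| ≤ η), μ x ≤ B)
    (hG : ∀ z ∈ Q, ∀ x ∈ W, |α z + val x * β z| ≤ t → G z) :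
    ∑ x ∈ W, μ x * (#(Q.filter fun z => |α z + val x * β z| ≤ t ∧ ¬ |β z| ≤ r) : ℝ) ≤
      #(Q.filter G) * B := by
  simp only [card_filter, Nat.cast_sum, mul_sum, sum_mul]
  rw [sum_comm]
  refine sum_le_sum fun z hz => ?_
  by_cases e : ∃ x₀ ∈ W, |α z + val x₀ * β z| ≤ t ∧ ¬ |β z| ≤ r
  · obtain ⟨x₀, h0, h1, h2⟩ := e
    rw [if_pos (hG z hz x₀ h0 h1), Nat.cast_one, one_mul]
    refine le_trans ?_ (hN x₀ h0)
    rw [sum_filter]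
    refine sum_le_sum fun x _ => ?_
    by_cases e' : |α z + val x * β z| ≤ t
    · have h3 : |val x₀ - val x| * |β z| ≤ 2 * t := by
        rw [← abs_mul, abs_le]
        rw [abs_le] at h1 e'
        constructor <;> linarith [h1.1, h1.2, e'.1, e'.2]
      have h4 : |val x₀ - val x| ≤ η := by
        have h5 := mul_le_mul_of_nonneg_left (not_le.1 h2).le (abs_nonneg (val x₀ - val x))
        refine le_of_mul_le_mul_right ?_ hr
        linarith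
      simp [e', h2, h4]
    · rw [if_neg fun h => e' h.1, Nat.cast_zero, mul_zero]
      split_ifs
      · exact hμ x
      · exact le_rfl
  · rw [sum_eq_zero fun x hx => by rw [if_neg fun h => e ⟨x, hx, h⟩, Nat.cast_zero, mul_zero]]
    positivity

theorem Proj_markov {ι : Type} (W : Finset ι) (μ N : ι → ℝ) (hμ : ∀ x, 0 ≤ μ x)
    (hN : ∀ x, 0 ≤ N x) {T E : ℝ} (hT : ∑ x ∈ W, μ x = T) (hT0 : 0 < T) (hE0 : 0 < E)
    (hE : ∑ x ∈ W, μ x * N x ≤ E) :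
    T / 2 ≤ ∑ x ∈ W.filter (fun x => N x ≤ 2 * E / T), μ x := by
  have h1 := sum_filter_add_sum_filter_not W (fun x => N x ≤ 2 * E / T) μ
  have h2 : (∑ x ∈ W.filter (fun x => ¬ N x ≤ 2 * E / T), μ x) * (2 * E / T) ≤ E := by
    rw [sum_mul]
    refine le_trans (sum_le_sum fun x hx => mul_le_mul_of_nonneg_left
      (not_le.1 (mem_filter.1 hx).2).le (hμ x)) (le_trans ?_ hE)
    exact sum_le_sum_of_subset_of_nonneg (filter_subset _ _) fun x _ _ => mul_nonneg (hμ x) (hN x)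
  rw [← mul_div_assoc, div_le_iff₀ hT0] at h2
  have h3 : (∑ x ∈ W.filter (fun x => ¬ N x ≤ 2 * E / T), μ x) * 2 ≤ T := by
    refine le_of_mul_le_mul_right ?_ hE0
    linarith
  linarith

theorem Proj_num {K L D n s τ m : ℝ} (hK : 2 ≤ K) (hL : 1 ≤ L) (hD : 0 < D) (hn : 0 < n)
    (hs0 : 0 < s) (hs : s ≤ n * L) (hτ : 1 / (2 * K) ≤ τ) (hτ' : τ ≤ K) (hm : τ ^ 2 / 2 ≤ m)
    (h : m * (n ^ 4 / (L * D)) ≤ m * (n * (s * (1 / (L ^ 3 * K ^ 20)) * (n * (s * (K / D))))) +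
      (2 * (n ^ 3 * s * (1 / (L ^ 3 * K ^ 20 * D))) +
        60 * τ ^ 2 * n ^ 4 * (1 / (L ^ 3 * K ^ 20 * D)))) : False := by
  have hK0 : 0 < K := by linarith
  have hL0 : 0 < L := by linarith
  have hτ0 : 0 < τ := lt_of_lt_of_le (by positivity) hτ
  have hm0 : 0 < m := lt_of_lt_of_le (by positivity) hm
  obtain ⟨σ, rfl⟩ : ∃ σ, s = n * σ := ⟨s / n, by field_simp⟩
  have hσ : σ ≤ L := le_of_mul_le_mul_left hs hn
  have hσ0 : 0 < σ := (mul_pos_iff_of_pos_left hn).1 hs0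
  have h1 : m * (L ^ 2 * K ^ 20) ≤ m * (σ ^ 2 * K) + (2 * σ + 60 * τ ^ 2) := by
    have h2 := mul_le_mul_of_nonneg_right h
      (show 0 ≤ L ^ 3 * K ^ 20 * D / n ^ 4 by positivity)
    refine le_trans (le_of_eq ?_) (h2.trans (le_of_eq ?_)) <;> field_simp
  have h2 : 1 ≤ 8 * K ^ 2 * m := by
    rw [div_le_iff₀ (by positivity)] at hτ
    have : 1 ≤ (τ * (2 * K)) ^ 2 := one_le_pow₀ hτ
    nlinarith
  have h3 : (2 : ℝ) ^ 16 ≤ K ^ 16 := pow_le_pow_left₀ (by norm_num) hK 16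
  have h4 : K ≤ K ^ 4 := le_self_pow₀ (by linarith) (by norm_num)
  have h5 : σ ^ 2 ≤ L ^ 2 := pow_le_pow_left₀ hσ0.le hσ 2
  have h6 : τ ^ 2 ≤ K ^ 2 := pow_le_pow_left₀ hτ0.le hτ' 2
  have h7 : 1 ≤ K ^ 2 := one_le_pow₀ (by linarith)
  have h8 : L ≤ L ^ 2 := le_self_pow₀ hL (by norm_num)
  have h9 : m * (σ ^ 2 * K) ≤ m * (L ^ 2 * K ^ 4) := by gcongr
  have h10 : m * (L ^ 2 * (K ^ 4 * 2 ^ 16)) ≤ m * (L ^ 2 * K ^ 20) := by
    rw [show K ^ 20 = K ^ 4 * K ^ 16 by ring]; gcongr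
  have h11 : L ^ 2 * K ^ 2 * 1 ≤ L ^ 2 * K ^ 2 * (8 * K ^ 2 * m) := by gcongr
  have h12 : L ^ 2 * 1 ≤ L ^ 2 * K ^ 2 := by gcongr
  have h13 : 1 * K ^ 2 ≤ L ^ 2 * K ^ 2 := by gcongr; linarith
  nlinarith

theorem proj (hc : CoverStmt) (he : ExpandStmt) : ProjStmt := by
  obtain ⟨C₂, hc⟩ := hc
  refine ⟨C₂ * 3 + 20, fun K D δ s θ r₀ Ω X Y C τ κ Gd FY F hd hY1 hFY hF hθ0 hθ1 hr0 hr1 hδ a1 a2
    a3 a4 a5 => ?_⟩
  obtain ⟨Ω', hΩ, C', hC, hn, hτ, hcoll⟩ := hc K D δ s Ω X Y C τ κ Gd hd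
  have hK := hd.two_le
  have hK0 : 0 < K := by linarith
  have hD := hd.D_pos
  have hs := hd.s_pos
  have hδ0 := hd.δ_pos
  rw [pow_add, pow_mul] at a2 a3 a5
  simp only [pow_add, pow_mul] at a4
  have hL : 1 ≤ K ^ C₂ := one_le_pow₀ (by linarith)
  generalize K ^ C₂ = L at *
  have hL0 : 0 < L := by linarith
  set τ₀ := ∑ c ∈ C', τ c with hτ₀
  have hτ0 : 0 < τ₀ := lt_of_lt_of_le (by positivity) hτ
  have hτ1 : τ₀ ≤ K :=
    (sum_le_sum_of_subset_of_nonneg hC fun c _ _ => hd.nonneg c).trans hd.total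
  have hn0 : (0 : ℝ) < #Ω' := lt_of_lt_of_le (by positivity) hn
  obtain ⟨p₀, hp₀⟩ : Ω'.Nonempty := card_pos.1 (by exact_mod_cast hn0)
  obtain ⟨c₀, hc₀⟩ : C'.Nonempty := by
    by_contra h
    rw [not_nonempty_iff_eq_empty] at h
    simp [hτ₀, h] at hτ0
  have hcnt : ∀ r, 0 ≤ r → ∀ p ∈ Ω', (#(Ω'.filter fun q => |Y q - Y p| ≤ r) : ℝ) ≤ s * FY r :=
    fun r hr p hp => (Proj_sub hΩ Y p r).trans (hFY p (hΩ hp) r hr)
  have hFY0 : ∀ r, 0 ≤ r → 0 ≤ s * FY r := fun r hr =>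
    (Nat.cast_nonneg _).trans (hcnt r hr p₀ hp₀)
  have hF' : ∀ c ∈ C', ∀ r, 0 ≤ r → mG2 C' τ κ c r ≤ F r := fun c hc r hr =>
    (sum_le_sum_of_subset_of_nonneg (filter_subset_filter _ hC) fun c _ _ => hd.nonneg c).trans
      (hF c (hC hc) r hr)
  have hF0 : ∀ r, 0 ≤ r → 0 ≤ F r := fun r hr =>
    (sum_nonneg fun c _ => hd.nonneg c).trans (hF' c₀ hc₀ r hr)
  have hFθ : F θ < τ₀ := by
    refine lt_of_lt_of_le (a3.trans_lt (one_div_lt_one_div_of_lt (by positivity) ?_)) hτ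
    have h1 : (2 : ℝ) ^ 19 ≤ K ^ 19 := pow_le_pow_left₀ (by norm_num) hK 19
    have h2 : 1 ≤ L ^ 3 := one_le_pow₀ hL
    have h3 : 1 * (2 ^ 19 * K) ≤ L ^ 3 * (K ^ 19 * K) := by gcongr
    rw [pow_succ K 19]
    linarith
  obtain ⟨p, q, w, hp, hq, hw0, hw1, hp2, hq3, hE⟩ := he C' τ κ F θ ⟨c₀, hc₀⟩ hd.nonneg
    (fun c hc => hd.k0 c (hC hc)) (fun c hc => hd.k1 c (hC hc)) hF' hθ0 hθ1 hFθ
  rw [← hτ₀] at hE
  have hw : 0 < w := by linarith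
  have hFF : 0 ≤ F θ * F (2 * θ ^ 8 / w) := mul_nonneg (hF0 _ hθ0.le) (hF0 _ (by positivity))
  set E := τ₀ ^ 2 * (F θ * F (2 * θ ^ 8 / w)) + 30 * θ ^ 6 * τ₀ ^ 4 with hEdef
  have hE0 : 0 < E := by positivity
  let μ : ℕ × ℕ → ℝ := fun x => τ x.1 * τ x.2
  let val : ℕ × ℕ → ℝ := fun x => p * κ x.1 + q * κ x.2
  let N : ℕ × ℕ → ℝ := fun x => ∑ y ∈ (C' ×ˢ C').filter (fun y => |val x - val y| ≤ θ ^ 8), μ y
  have hμ : ∀ x, 0 ≤ μ x := fun x => mul_nonneg (hd.nonneg _) (hd.nonneg _)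
  have hT : ∑ x ∈ C' ×ˢ C', μ x = τ₀ ^ 2 := by
    rw [sq, hτ₀, sum_mul_sum, sum_product]
  have hen : ∑ x ∈ C' ×ˢ C', μ x * N x ≤ E := by
    refine le_trans (le_of_eq ?_) hE
    rw [energy, sum_filter, sum_product (C' ×ˢ C')]
    refine sum_congr rfl fun x _ => ?_
    simp only [N, sum_filter, mul_sum, mul_ite, mul_zero]
    rfl
  have hm := Proj_markov _ μ N hμ (fun x => sum_nonneg fun y _ => hμ y) hT (by positivity) hE0 hen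
  set W := (C' ×ˢ C').filter (fun x => N x ≤ 2 * E / τ₀ ^ 2) with hW
  have hWs : ∀ x ∈ W, x.1 ∈ C' ∧ x.2 ∈ C' := fun x hx => mem_product.1 (mem_filter.1 hx).1
  set Q := (Ω' ×ˢ Ω') ×ˢ (Ω' ×ˢ Ω') with hQ
  have hθ8 : θ ^ 8 ≤ θ := pow_le_of_le_one hθ0.le (by linarith) (by norm_num)
  have hfar := Proj_far W μ val hμ Q (fun z => Y z.1.1 - Y z.2.1) (fun z => Y z.1.2 - Y z.2.2)
    (t := 100 * δ) (r := r₀) (η := θ ^ 8) (B := 2 * E / τ₀ ^ 2)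
    (fun z => |Y z.2.1 - Y z.1.1| ≤ 6 * w) hr0 (by linarith) (by positivity)
    (fun x₀ hx₀ => le_trans (sum_le_sum_of_subset_of_nonneg
      (filter_subset_filter _ (filter_subset _ _)) fun y _ _ => hμ y) (mem_filter.1 hx₀).2)
    (fun z hz x hx h => by
      obtain ⟨h1, h2⟩ := mem_product.1 hz
      have b1 := hY1 _ (hΩ (mem_product.1 h1).2) _ (hΩ (mem_product.1 h2).2)
      have b2 : |val x| ≤ 5 * w := by
        obtain ⟨c1, c2⟩ := hWs x hx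
        have d1 : |κ x.1| ≤ 1 := abs_le.2 ⟨by linarith [hd.k0 _ (hC c1)], hd.k1 _ (hC c1)⟩
        have d2 : |κ x.2| ≤ 1 := abs_le.2 ⟨by linarith [hd.k0 _ (hC c2)], hd.k1 _ (hC c2)⟩
        refine (abs_add_le _ _).trans ?_
        rw [abs_mul, abs_mul]
        linarith [mul_le_mul hp2 d1 (abs_nonneg _) (by positivity),
          mul_le_mul hq3 d2 (abs_nonneg _) (by positivity)]
      have b3 : |val x * (Y z.1.2 - Y z.2.2)| ≤ 5 * w := by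
        rw [abs_mul]
        linarith [mul_le_mul b2 b1 (abs_nonneg _) (by positivity)]
      have b4 : r₀ * θ ^ 8 ≤ 1 * θ ^ 8 := by gcongr
      rw [abs_le] at h b3 ⊢
      constructor <;> linarith [h.1, h.2, b3.1, b3.2])
  have hnear : ∀ v : ℝ, (#(Q.filter fun x =>
      |Y x.1.1 + v * Y x.1.2 - (Y x.2.1 + v * Y x.2.2)| ≤ 100 * δ ∧ |Y x.2.2 - Y x.1.2| ≤ r₀) : ℝ) ≤
      #Ω' * (s * (1 / (L ^ 3 * K ^ 20)) * (#Ω' * (s * (K / D)))) := fun v =>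
    Proj_near (by positivity)
      (fun p hp => (hcnt _ (by positivity) p hp).trans (by
        rw [show 2 * (100 * δ) = 200 * δ by ring]; gcongr))
      (fun p hp => (hcnt _ hr0.le p hp).trans (by gcongr)) v
  have hsplit : ∀ x ∈ W, μ x * ((#Ω' : ℝ) ^ 4 / (L * D)) ≤
      μ x * (#Ω' * (s * (1 / (L ^ 3 * K ^ 20)) * (#Ω' * (s * (K / D))))) +
      μ x * (#(Q.filter fun z => |Y z.1.1 - Y z.2.1 + val x * (Y z.1.2 - Y z.2.2)| ≤ 100 * δ ∧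
        ¬ |Y z.1.2 - Y z.2.2| ≤ r₀) : ℝ) := fun x hx => by
    rw [← mul_add]
    refine mul_le_mul_of_nonneg_left ((hcoll p q hp hq _ (hWs x hx).1 _ (hWs x hx).2).trans
      (le_trans ?_ (add_le_add (hnear (val x)) le_rfl))) (hμ x)
    rw [coll, ← Nat.cast_add, Nat.cast_le]
    refine le_trans (card_le_card fun z hz => ?_) (card_union_le _ _)
    obtain ⟨h1, h2⟩ := mem_filter.1 hz
    by_cases e : |Y z.1.2 - Y z.2.2| ≤ r₀
    · exact mem_union_left _ (mem_filter.2 ⟨h1, h2, by rwa [abs_sub_comm]⟩)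
    · refine mem_union_right _ (mem_filter.2 ⟨h1, ?_, e⟩)
      convert h2 using 2
      simp only [val]
      ring
  have hsum := sum_le_sum hsplit
  rw [sum_add_distrib, ← sum_mul, ← sum_mul] at hsum
  refine Proj_num hK hL hD hn0 hs (by rwa [div_le_iff₀ hL0] at hn) hτ hτ1 hm
    (hsum.trans (add_le_add le_rfl (hfar.trans ?_)))
  have g1 := Proj_close (hcnt (6 * w) (by positivity))
  have g2 : (#(Q.filter fun z => |Y z.2.1 - Y z.1.1| ≤ 6 * w) : ℝ) ≤ (#Ω' : ℝ) ^ 4 := by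
    refine (Nat.cast_le.2 (card_filter_le _ _)).trans (le_of_eq ?_)
    simp only [hQ, card_product]
    push_cast
    ring
  have e : 2 * E / τ₀ ^ 2 = 2 * (F θ * F (2 * θ ^ 8 / w)) + 60 * τ₀ ^ 2 * θ ^ 6 := by
    rw [hEdef]; field_simp; ring
  rw [e, mul_add]
  refine add_le_add ?_ ?_
  · calc _ ≤ (#Ω' : ℝ) * (#Ω' * (#Ω' * (s * FY (6 * w)))) * (2 * (F θ * F (2 * θ ^ 8 / w))) :=
          mul_le_mul_of_nonneg_right g1 (by positivity)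
      _ = 2 * ((#Ω' : ℝ) ^ 3 * s * (FY (6 * w) * (F θ * F (2 * θ ^ 8 / w)))) := by ring
      _ ≤ _ := by have := a4 w hw0 hw1; gcongr
  · calc _ ≤ (#Ω' : ℝ) ^ 4 * (60 * τ₀ ^ 2 * θ ^ 6) :=
          mul_le_mul_of_nonneg_right g2 (by positivity)
      _ = 60 * τ₀ ^ 2 * (#Ω' : ℝ) ^ 4 * θ ^ 6 := by ring
      _ ≤ _ := by gcongr

end Crest.Agent.R51
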