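import Crest.Agent.R51.Defs

/-!
# Row 51: statements of the parts

Every part is a `def …Stmt : Prop`; a task proves `theorem name (hyps : earlier Stmts) : …Stmt`
in its own file `Crest/Agent/R51/<File>.lean`.  Recipes are in `Blueprint.lean`.
Throughout `s = lam ^ 2 * d`.
-/

set_option autoImplicit false

noncomputable section

namespace Crest.Agent.R51

open Finset Classical

/-! ## Part 0: from k-sets to systems of chains -/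

/-- the sweep identity (file `Sweep`) -/
def SweepStmt : Prop :=
  ∀ (P : Finset Pt), GP P → ∀ p ∈ P, ∀ (j : ℕ) (θ₁ θ₂ : ℝ), θ₁ ≤ θ₂ →
    ((if rk P θ₂ p ≤ j then 1 else 0) - (if rk P θ₁ p ≤ j then 1 else 0) : ℤ) =
      (#((edges P j).filter fun e => e.2 = p ∧ θ₁ < slope e.1 e.2 ∧ slope e.1 e.2 ≤ θ₂) : ℤ) -
      (#((edges P j).filter fun e => e.1 = p ∧ θ₁ < slope e.1 e.2 ∧ slope e.1 e.2 ≤ θ₂) : ℤ)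

/-- the `j`-edges form a system of at most `#P` chains with the level property (file `Tokens`) -/
def TokensStmt : Prop :=
  ∀ (P : Finset Pt), GP P → ∀ j : ℕ, ∃ (v : ℤ → Pt) (I : Finset ℤ),
    Sys P v I ∧ #I = #(edges P j) ∧ nr I ≤ #P ∧ Lv P v I

/-- no extremal level (file `Core`) -/
def CoreStmt : Prop :=
  ∃ (C : ℕ) (ω₀ : ℝ), ∀ (ω lam d : ℝ) (P : Finset Pt) (v : ℤ → Pt) (I : Finset ℤ),
    ω₀ ≤ ω → ω ^ C ≤ d → 0 < lam → lam ≤ ω * d → d ≤ ω * lam →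
    Cfg lam d ω P v I I → Lv P v I → False

/-- power saving for one level (file `Top`) -/
def LevelStmt : Prop :=
  ∃ ε : ℝ, 0 < ε ∧ ε ≤ 1 / 3 ∧ ∃ C : ℝ, 0 ≤ C ∧ ∀ P : Finset Pt, GP P → ∀ j : ℕ,
    (#(edges P j) : ℝ) ≤ C * (#P : ℝ) ^ ((4 : ℝ) / 3 - ε)

/-- power saving in terms of `k` (file `Window`) -/
def EdgeStmt : Prop :=
  ∃ ε : ℝ, 0 < ε ∧ ε ≤ 1 / 3 ∧ ∃ C : ℝ, 0 ≤ C ∧ ∀ P : Finset Pt, GP P → ∀ k : ℕ, 1 ≤ k →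
    k ≤ #P → (#(edges P (k - 1)) : ℝ) ≤ C * (#P : ℝ) * ((k : ℝ) + 1) ^ ((1 : ℝ) / 3 - ε)

/-- the final statement (file `Ksets`) -/
def KsetStmt : Prop :=
  ∃ ε₀ : ℝ, 0 < ε₀ ∧ ∃ C₀ : ℝ, ∀ n : ℕ, 2 ≤ n → ∀ k : ℕ, 1 ≤ k → 2 * k ≤ n →
    ∀ Q : Finset (ℝ × ℝ), Q.card = n →
      (∀ p ∈ Q, ∀ q ∈ Q, ∀ r ∈ Q, p ≠ q → p ≠ r → q ≠ r →
        (q.1 - p.1) * (r.2 - p.2) - (q.2 - p.2) * (r.1 - p.1) ≠ 0) →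
      (((Q.powersetCard k).filter (fun S => ∃ a b c : ℝ, (a ≠ 0 ∨ b ≠ 0) ∧
          (∀ p ∈ S, a * p.1 + b * p.2 + c < 0) ∧
          (∀ p ∈ Q, p ∉ S → 0 < a * p.1 + b * p.2 + c))).card : ℝ)
        ≤ C₀ * (n : ℝ) * ((k : ℝ) + 1) ^ ((1 : ℝ) / 3 - ε₀)

/-! ## Part 1: the crossing-lemma substitute -/

/-- `z` is on the closed segment of edge `i` -/
def OnSeg (v : ℤ → Pt) (i : ℤ) (z : Pt) : Prop :=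
  (v i).1 ≤ z.1 ∧ z.1 ≤ (v (i + 1)).1 ∧ h (sl v i) z = h (sl v i) (v i)

/-- `z` is strictly above (the convex extension of) the run with first edge `g` -/
def Abv (v : ℤ → Pt) (I : Finset ℤ) (g : ℤ) (z : Pt) : Prop :=
  ∀ j ∈ I, root I j = g → h (sl v j) (v j) < h (sl v j) z

/-- `z` is weakly above the run with first edge `g` -/
def WAbv (v : ℤ → Pt) (I : Finset ℤ) (g : ℤ) (z : Pt) : Prop :=
  ∀ j ∈ I, root I j = g → h (sl v j) (v j) ≤ h (sl v j) z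

/-- the run `g` meets the segment of edge `i` -/
def Meets (v : ℤ → Pt) (I : Finset ℤ) (g i : ℤ) : Prop :=
  ∃ z₁ z₂ : Pt, OnSeg v i z₁ ∧ OnSeg v i z₂ ∧ WAbv v I g z₁ ∧ ¬ Abv v I g z₂

/-- the meeting bound (file `Meet`) -/
def MeetStmt : Prop :=
  ∀ (P : Finset Pt) (v : ℤ → Pt) (I : Finset ℤ), Sys P v I →
    #((I ×ˢ starts I).filter fun x => x.2 ≠ root I x.1 ∧ Meets v I x.2 x.1) ≤
      4 * nr I ^ 2 + 4 * #P ^ 2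

/-- rank strips (file `Cut`) -/
def CutStmt : Prop :=
  ∀ (P : Finset Pt) (v : ℤ → Pt) (I : Finset ℤ), Sys P v I → ∀ w : ℕ, 1 ≤ w →
    ∃ (str : Pt → ℤ) (Bad : Finset ℤ), w * #Bad ≤ 2 * (4 * nr I ^ 2 + 4 * #P ^ 2) ∧
      (∀ i ∈ I, i ∉ Bad → str (v i) = str (v (i + 1))) ∧
      ∀ (k : ℤ) (x₀ : ℝ), #(I.filter fun i => i ∉ Bad ∧ str (v i) = k ∧ (v i).1 ≤ x₀ ∧
        x₀ < (v (i + 1)).1) ≤ w

/-- the incidence bound (file `Wall`) -/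
def IStarStmt : Prop :=
  ∀ (P : Finset Pt) (v : ℤ → Pt) (I : Finset ℤ), Sys P v I → ∀ G ⊆ I, ∀ A B : Finset Pt,
    (∀ i ∈ G, v i ∈ A) → (∀ i ∈ G, v (i + 1) ∈ B) → ∀ Z : ℝ, 0 < Z →
    (4 * (nr I : ℝ) ^ 2 + 4 * (#P : ℝ) ^ 2) * #A * #B ≤ Z ^ 3 →
    (#G : ℝ) ≤ 5 * Z + #A + 2 * #B

/-- the partition lemma (file `Wall`) -/
def PStarStmt : Prop :=
  ∀ (P : Finset Pt) (v : ℤ → Pt) (I : Finset ℤ), Sys P v I → ∀ s' Z : ℝ, 1 ≤ s' → 0 < Z →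
    (4 * (nr I : ℝ) ^ 2 + 4 * (#P : ℝ) ^ 2) * #P ≤ Z ^ 2 * s' →
    ∃ c : Pt → ℤ × ℕ, (∀ k, (#(part c k P) : ℝ) ≤ s') ∧
      (#(cut c v I) : ℝ) ≤ 5 * Z + 2 * #P / s'

/-- edges from heavy left ends (file `Cor`) -/
def HeavyStmt : Prop :=
  ∀ (P : Finset Pt) (v : ℤ → Pt) (I : Finset ℤ), Sys P v I → ∀ G ⊆ I, ∀ A B : Finset Pt,
    (∀ i ∈ G, v i ∈ A) → (∀ i ∈ G, v (i + 1) ∈ B) → ∀ ρ z : ℝ, 2 ≤ ρ → 0 < z →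
    ρ * #A ≤ #G → (#B : ℝ) ≤ z ^ 2 * ρ → (#G : ℝ) ≤ 180 * ((nr I : ℝ) + #P) * z + 8 * #B

/-- edges inside `Z` whose run has at least `l` edges inside `Z` -/
def longIn (v : ℤ → Pt) (I : Finset ℤ) (Z : Finset Pt) (l : ℝ) : Finset ℤ :=
  I.filter fun i => v i ∈ Z ∧ v (i + 1) ∈ Z ∧
    l ≤ (#(I.filter fun j => root I j = root I i ∧ v j ∈ Z ∧ v (j + 1) ∈ Z) : ℝ)

/-- few edges lie on runs that stay long in a small set (file `Cor`) -/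
def LongStmt : Prop :=
  ∀ (P : Finset Pt) (v : ℤ → Pt) (I : Finset ℤ), Sys P v I → ∀ (Z : Finset Pt) (l D : ℝ),
    0 < l → 1 ≤ D → (#P : ℝ) ^ 2 ≤ D ^ 3 →
    (#(longIn v I Z l) : ℝ) ≤ 8000 * (#Z : ℝ) ^ 2 / l ^ 2 + 26 * #Z * D

/-- total number of edges (file `Cor`) -/
def CardStmt : Prop :=
  ∀ (lam d u : ℝ) (P : Finset Pt) (v : ℤ → Pt) (I : Finset ℤ), Cfg0 lam d u P v I →
    1 ≤ u → 1 ≤ d → 0 < lam → lam ≤ u * d → (#I : ℝ) ≤ 13 * u * (lam ^ 2 * d ^ 2)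

/-- partition of a configuration at scale `lam'` (file `Cor`) -/
def PartStmt : Prop :=
  ∀ (lam d u : ℝ) (P : Finset Pt) (v : ℤ → Pt) (I : Finset ℤ), Cfg0 lam d u P v I →
    1 ≤ u → 1 ≤ d → 0 < lam → lam ≤ u * d → ∀ lam' : ℝ, 1 ≤ lam' →
    ∃ c : Pt → ℤ × ℕ, (∀ k, (#(part c k P) : ℝ) ≤ lam' ^ 2 * d) ∧
      (#(cut c v I) : ℝ) ≤ 17 * u * (lam ^ 2 * d ^ 2) / lam'

/-- few edges leave points of large degree (file `Cor`) -/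
def DegStmt : Prop :=
  ∀ (lam d u : ℝ) (P : Finset Pt) (v : ℤ → Pt) (I : Finset ℤ), Cfg0 lam d u P v I →
    1 ≤ u → 2 ≤ d → 0 < lam → lam ≤ u * d → ∀ g : ℝ, 1 ≤ g →
    (#(I.filter fun i => g ^ 2 * d ≤ (#(I.filter fun j => v j = v i) : ℝ)) : ℝ) ≤
      (360 * u / g + 8 / d) * (lam ^ 2 * d ^ 2)

/-- descent to an extremal part (file `Descend`) -/
def DescendStmt : Prop :=
  ∀ (lam d u u' lam' : ℝ) (P : Finset Pt) (v : ℤ → Pt) (I G : Finset ℤ) (κ : Type)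
    (c : Pt → κ) (t : κ → ℝ), Cfg lam d u P v I G → 1 ≤ u → 1 ≤ u' → 0 < lam →
    2 * u * u' ≤ lam' → lam' ≤ d → 50 * u * u' ≤ d → (∀ k, 0 ≤ t k) →
    (∀ k, (#(part c k P) : ℝ) ≤ lam' ^ 2 * d) →
    (#(cut c v I) : ℝ) + nr I + ∑ k ∈ P.image c, t k ≤ u' * (lam ^ 2 * d ^ 2) / lam' →
    ∃ k, Cfg lam' d (8000 * (8 * u * u') ^ 4) (part c k P) v (inside c k v I) (inside c k v G) ∧
      t k ≤ 8000 * (8 * u * u') ^ 4 * lam' * d ^ 2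

/-! ## Part 2: structure of an extremal level -/

/-- out-edges are not concentrated in one small class (file `Gamma`) -/
def GammaStmt : Prop :=
  ∀ (lam d u Z r : ℝ) (P : Finset Pt) (v : ℤ → Pt) (I : Finset ℤ) (cl : ℤ → ℕ),
    Cfg0 lam d u P v I → Mono (sl v) I cl → Link I cl → 1 ≤ u → u ≤ Z → 10000 ≤ Z →
    Z ^ 3 ≤ lam → lam ≤ d → Z ^ 30 ≤ d → (#(I.image cl) : ℝ) ≤ r → r * lam ≤ d →
    (∀ c, (#(I.filter fun i => cl i = c) : ℝ) ≤ lam ^ 2 * d ^ 2 / Z ^ 30) →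
    (#(I.filter fun i => d / Z ≤ (#(I.filter fun j => v j = v i ∧ cl j = cl i) : ℝ)) : ℝ) ≤
      lam ^ 2 * d ^ 2 / Z

/-- the local width `ν` of edge `i` in its class, plus `s / r` -/
def nb (P : Finset Pt) (v : ℤ → Pt) (cl : ℤ → ℕ) (lo hi : ℕ → ℝ) (t : ℝ) (i : ℤ) : ℝ :=
  max (nu P (lo (cl i)) (hi (cl i)) (v i) : ℝ) (nu P (lo (cl i)) (hi (cl i)) (v (i + 1))) + t

/-- a large out-degree in a class forces a large `ν` (file `Excess`) -/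
def ExcessStmt : Prop :=
  ∀ (lam d u Z r : ℝ) (E : ℕ) (P : Finset Pt) (v : ℤ → Pt) (I : Finset ℤ) (cl : ℤ → ℕ)
    (lo hi : ℕ → ℝ), Cfg0 lam d u P v I → Mono (sl v) I cl → Link I cl →
    Hull (sl v) I cl lo hi → 2 ≤ u → u ≤ Z → 10000 ≤ Z → 1 ≤ lam → 1 ≤ r → r ≤ u ^ E →
    (E : ℝ) + 2 ≤ Z → (#(I.image cl) : ℝ) ≤ r → (Z * r * lam) ^ 3 ≤ d →
    (#(I.filter fun i => Z ^ 10 * nb P v cl lo hi (lam ^ 2 * d / r) i / lam ^ 2 <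
        (#(I.filter fun j => v j = v i ∧ cl j = cl i ∧ nb P v cl lo hi (lam ^ 2 * d / r) j ≤
          2 * nb P v cl lo hi (lam ^ 2 * d / r) i) : ℝ)) : ℝ) ≤ lam ^ 2 * d ^ 2 / Z

/-- points are active in few windows (file `Alpha`) -/
def AlphaStmt : Prop :=
  ∀ (P : Finset Pt) (v : ℤ → Pt) (I : Finset ℤ) (D : Finset ℝ) (win : ℤ → ℕ) (r ν : ℝ),
    Sys P v I → Mono (sl v) I win → (∀ i ∈ I, (win i : ℝ) ≤ r) → 0 ≤ r → 0 < ν →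
    (∀ i ∈ I, ∀ j ∈ I, sl v i ≤ sl v j →
      |(rk P (sl v i) (v (i + 1)) : ℝ) - rk P (sl v j) (v (j + 1))| ≤
        #(D.filter fun x => sl v i ≤ x ∧ x ≤ sl v j)) →
    ∑ p ∈ P, (#((I.filter fun i => v i = p).image win) : ℝ) ≤
      2 * #D + (r + 1) * (2 * ν + 1) + (#P : ℝ) ^ 2 / ν

/-- most windows are narrow (file `Narrow`) -/
def NarrowStmt : Prop :=
  ∀ (σ : ℤ → ℝ) (I : Finset ℤ) (win blk : ℤ → ℕ) (M m n : ℝ), Mono σ I win → Mono σ I blk →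
    (∀ i ∈ I, ∀ j ∈ I, win i = win j → blk i = blk j) → 0 ≤ M →
    (∀ w, (#(I.filter fun i => win i = w) : ℝ) ≤ m) → (#(I.image blk) : ℝ) ≤ n →
    (#(I.filter fun i => ¬ Narrow σ I win blk M i) : ℝ) ≤ n ^ 2 * (2 * M + 1) * m

/-- level `B` (file `LevelB`) -/
def LevelBStmt : Prop :=
  ∃ C : ℕ, ∀ (ω Z y lam d : ℝ) (P : Finset Pt) (v : ℤ → Pt) (I : Finset ℤ),
    10000 ≤ ω → ω ^ C ≤ Z → Z ^ C ≤ y → y ^ C ≤ d → 0 < lam → lam ≤ ω * d → d ≤ ω * lam →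
    Cfg lam d ω P v I I → Lv P v I →
    ∃ (P' : Finset Pt) (I' G' : Finset ℤ) (win blk : ℤ → ℕ),
      Cfg (d / y) d (ω ^ C) P' v I' G' ∧
      Win v I' G' win blk (y ^ 2) (ω ^ C * y) (d / Z) (y ^ 2 / Z ^ C)

/-- levels `B₁` and `B₂` (file `LevelB2`) -/
def LevelB2Stmt : Prop :=
  ∃ C : ℕ, ∀ (u N lam lamB d : ℝ) (E : ℕ) (P : Finset Pt) (v : ℤ → Pt) (I G : Finset ℤ)
    (win : ℤ → ℕ), 10000 ≤ u → u ^ C ≤ N → N ≤ u ^ E → (E : ℝ) ≤ u → u ^ C ≤ lam →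
    (N * lam) ^ C ≤ lamB → lamB ≤ d → Cfg lamB d u P v I G → Mono (sl v) I win →
    (∀ i ∈ I, (win i : ℝ) ≤ N) →
    ∃ (P' : Finset Pt) (I' G' : Finset ℤ) (cl : ℤ → ℕ) (lo hi gam : ℕ → ℝ), I' ⊆ I ∧ G' ⊆ G ∧
      B2 lam d (u ^ C) (1 / N) P' v I' G' cl lo hi gam ∧
      ∀ i ∈ I', ∀ j ∈ I', cl i = cl j → win i = win j

/-- the run of `i` moves by at most `W` in rank `θ` during `l` steps after or before `v i` -/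
def Flat (P : Finset Pt) (v : ℤ → Pt) (I : Finset ℤ) (θ W : ℝ) (l : ℕ) (i : ℤ) : Prop :=
  ∃ j : ℤ, (j = i ∨ j = i - l) ∧ Seg I j (j + l) ∧ dr P θ (v j) (v (j + l)) ≤ W

/-- runs cross the strips of a direction used at the same point (file `Flat`) -/
def FlatStmt : Prop :=
  ∀ (lam d u η Z W : ℝ) (l : ℕ) (P : Finset Pt) (v : ℤ → Pt) (I G : Finset ℤ) (cl : ℤ → ℕ)
    (lo hi gam : ℕ → ℝ), B2 lam d u η P v I G cl lo hi gam → 1 ≤ u → u ≤ Z → 10000 ≤ Z →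
    1 ≤ lam → lam ≤ d → 1 ≤ W → η * (Z ^ 3 * (lam ^ 2 * d)) ≤ W → 1 ≤ l →
    Z ^ 20 * W ≤ l * (lam * d) → lam ^ 4 * Z ^ 12 ≤ d →
    (#(cher v G fun g i => cl g ≠ cl i ∧ Flat P v I (lo (cl g)) W l i) : ℝ) ≤
      lam ^ 2 * d ^ 3 / Z

/-- the box bound (file `Box`) -/
def BoxStmt : Prop :=
  ∀ (lam d u η Z W₁ W₂ : ℝ) (P : Finset Pt) (v : ℤ → Pt) (I G : Finset ℤ) (cl : ℤ → ℕ)
    (lo hi gam : ℕ → ℝ), B2 lam d u η P v I G cl lo hi gam → 1 ≤ u → u ≤ Z → 10000 ≤ Z →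
    1 ≤ lam → lam ≤ d → lam * d ≤ W₁ → 1 ≤ W₂ → η * (Z ^ 6 * (lam ^ 2 * d)) ≤ W₁ →
    η * (Z ^ 6 * (lam ^ 2 * d)) ≤ W₂ → lam ^ 4 * Z ^ 24 ≤ d →
    (#(cher v G fun g e => cl g ≠ cl e ∧ Z ^ 50 * W₁ * W₂ / (lam ^ 2 * d) <
      (#(zbox P (lo (cl g)) W₁ (lo (cl e)) W₂ (v e)) : ℝ)) : ℝ) ≤ lam ^ 2 * d ^ 3 / Z

/-- rank witnesses exist for most cherries (file `HWcount`) -/
def HWcountStmt : Prop :=
  ∀ (lam d u η Z U T g m ε₁ ε₂ : ℝ) (P : Finset Pt) (v : ℤ → Pt) (I G : Finset ℤ) (cl : ℤ → ℕ)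
    (lo hi gam : ℕ → ℝ), B2 lam d u η P v I G cl lo hi gam → 1 ≤ u → u ≤ Z → 10000 ≤ Z →
    Z ^ 150 ≤ U → U ≤ T → η ≤ 1 / T ^ 3 → T ≤ lam → lam ^ 10 ≤ d →
    U / T ≤ g → g ≤ 1 / U → U / T ≤ m → m ≤ 1 / U → Sg ε₁ → Sg ε₂ →
    (#(cher v G fun a e => cl a < cl e ∧
      ¬ RW P I cl lo hi gam (lam ^ 2 * d) U (cl a) (v e) (cl e) g m ε₁ ε₂) : ℝ) ≤
      lam ^ 2 * d ^ 3 / Z

/-- from rank witnesses to metric witnesses (file `HWgeom`) -/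
def HWgeomStmt : Prop :=
  ∀ (σ : ℤ → ℝ) (P : Finset Pt) (I : Finset ℤ) (cl : ℤ → ℕ) (lo hi gam : ℕ → ℝ)
    (s U g m ε₁ ε₂ : ℝ) (a c : ℕ) (p : Pt), GP P → Mono σ I cl → Hull σ I cl lo hi →
    (∀ c, 0 ≤ gam c) → p ∈ P → a ∈ I.image cl → c ∈ I.image cl → a < c → Sg ε₁ → Sg ε₂ →
    6 ≤ m * s → 6 ≤ U * g * m * s → RW P I cl lo hi gam s U a p c g m ε₁ ε₂ →
    Wit P Prod.fst (h (lo a)) ((I.image cl).filter fun c' => a < c') gam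
      (fun c' => kap (lo a) (lo c')) s U p c g m ε₁ ε₂

/-- the analytic theorem (file `Analytic`) -/
def AnStmt (C₁ : ℕ) : Prop :=
  ∀ (A a₀ b₀ : ℕ), C₁ ≤ a₀ → 8 * a₀ + C₁ ≤ 6 * b₀ → 8 * a₀ + C₁ ≤ A →
    ∀ (U s : ℝ) (P : Finset Pt) (X Y : Pt → ℝ) (C : Finset ℕ) (gam κ : ℕ → ℝ)
      (Gd : Pt → ℕ → Prop), AnBase A U s P Y C gam κ Gd → AnLev A U s P X Y C gam κ Gd →
      (∀ p c, Gd p c → ∃ w ε : ℝ, 0 ≤ w ∧ Sg ε ∧ mG C gam κ c ε w ≤ 1 / U ^ C₁ ∧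
        1 / U ^ a₀ ≤ mG2 C gam κ c (w / U ^ b₀)) → False

/-- contradiction at level `B₂` (file `Cherry`) -/
def CherryStmt (C₁ : ℕ) : Prop :=
  ∀ (A a₀ b₀ : ℕ), C₁ ≤ a₀ → 1 ≤ a₀ → 8 * a₀ + C₁ ≤ 6 * b₀ → 8 * a₀ + C₁ ≤ A →
    ∀ (lam d u η U r K ρ M : ℝ) (P : Finset Pt) (v : ℤ → Pt) (I₀ I G : Finset ℤ)
      (cl win blk : ℤ → ℕ) (lo hi gam : ℕ → ℝ), B2 lam d u η P v I G cl lo hi gam → I ⊆ I₀ →
      Win v I₀ G win blk r K ρ M → (∀ i ∈ I, ∀ j ∈ I, cl i = cl j → win i = win j) →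
      10000 ≤ u → 10 * (A : ℝ) ^ 2 ≤ u → u ^ 1000 ≤ U → η ≤ 1 / U ^ (3 * (A + 1)) →
      U ^ (A + 1) ≤ lam → lam ^ 10 ≤ d → K ≤ U ^ (a₀ - 1) → ρ ≤ d / U ^ (C₁ + 1) →
      U ^ b₀ ≤ M → False

/-! ## Part 3: the analytic theorem -/

/-- two-sided inequalities (file `Bal`) -/
def BalStmt : Prop :=
  ∀ (A : ℕ) (U s : ℝ) (P : Finset Pt) (X Y : Pt → ℝ) (C : Finset ℕ) (gam κ : ℕ → ℝ)
    (Gd : Pt → ℕ → Prop), 3 ≤ A → AnBase A U s P Y C gam κ Gd → AnLev A U s P X Y C gam κ Gd →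
    AnTwo (1 / U ^ A) U s P X Y C gam κ Gd

/-- anchoring (file `Anchor`) -/
def AnchorStmt : Prop :=
  ∀ (A : ℕ) (U s : ℝ) (P : Finset Pt) (X Y : Pt → ℝ) (C : Finset ℕ) (gam κ : ℕ → ℝ)
    (Gd : Pt → ℕ → Prop), 200 ≤ A → AnBase A U s P Y C gam κ Gd →
    AnTwo (1 / U ^ A) U s P X Y C gam κ Gd →
    ∃ (Ω : Finset Pt) (e₀ e₁ : ℕ) (ρ₀ : ℝ), Anch U s P Y C gam κ Gd Ω e₀ e₁ ρ₀

/-- the common profile (file `Profile`) -/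
def ProfileStmt : Prop :=
  ∀ (A : ℕ) (U s : ℝ) (P : Finset Pt) (X Y : Pt → ℝ) (C : Finset ℕ) (gam κ : ℕ → ℝ)
    (Gd : Pt → ℕ → Prop) (Ω : Finset Pt) (e₀ e₁ : ℕ) (ρ₀ : ℝ), AnBase A U s P Y C gam κ Gd →
    AnTwo (1 / U ^ A) U s P X Y C gam κ Gd → Anch U s P Y C gam κ Gd Ω e₀ e₁ ρ₀ →
    Prof (U ^ 500) (1 / U ^ A) s P Y C gam κ Gd Ω e₀ e₁ ρ₀
      (fun r => max (mG2 C gam κ e₀ (r * (κ e₁ - κ e₀))) (1 / U ^ A))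

/-- approximate-group step of the projection theorem (file `Cover`) -/
def CoverStmt : Prop :=
  ∃ C₂ : ℕ, ∀ (K D δ s : ℝ) (Ω : Finset Pt) (X Y : Pt → ℝ) (C : Finset ℕ) (τ κ : ℕ → ℝ)
    (Gd : Pt → ℕ → Prop), Disc K D δ s Ω X Y C τ κ Gd →
    ∃ Ω' ⊆ Ω, ∃ C' ⊆ C, s / K ^ C₂ ≤ (#Ω' : ℝ) ∧ 1 / (2 * K) ≤ ∑ c ∈ C', τ c ∧
      ∀ p q : ℝ, Lin C' κ p → Lin C' κ q → ∀ c ∈ C', ∀ c' ∈ C',
        (#Ω' : ℝ) ^ 4 / (K ^ C₂ * D) ≤ coll Ω' Y (p * κ c + q * κ c') (100 * δ)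

/-- expansion of the set of directions (file `Expand`) -/
def ExpandStmt : Prop :=
  ∀ (C : Finset ℕ) (τ κ : ℕ → ℝ) (F : ℝ → ℝ) (θ : ℝ), C.Nonempty → (∀ c, 0 ≤ τ c) →
    (∀ c ∈ C, 0 ≤ κ c) →
    (∀ c ∈ C, κ c ≤ 1) → (∀ c ∈ C, ∀ r, 0 ≤ r → mG2 C τ κ c r ≤ F r) → 0 < θ → θ ≤ 1 / 10 →
    F θ < ∑ c ∈ C, τ c →
    ∃ p q w : ℝ, Lin C κ p ∧ Lin C κ q ∧ θ ≤ w ∧ w ≤ 1 ∧ |p| ≤ 2 * w ∧ |q| ≤ 3 * w ∧
      energy C τ κ p q (θ ^ 8) ≤ (∑ c ∈ C, τ c) ^ 2 * (F θ * F (2 * θ ^ 8 / w)) +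
        30 * θ ^ 6 * (∑ c ∈ C, τ c) ^ 4

/-- the discretised projection theorem (file `Proj`) -/
def ProjStmt : Prop :=
  ∃ C₃ : ℕ, ∀ (K D δ s θ r₀ : ℝ) (Ω : Finset Pt) (X Y : Pt → ℝ) (C : Finset ℕ) (τ κ : ℕ → ℝ)
    (Gd : Pt → ℕ → Prop) (FY F : ℝ → ℝ), Disc K D δ s Ω X Y C τ κ Gd →
    (∀ p ∈ Ω, ∀ q ∈ Ω, |Y p - Y q| ≤ 1) →
    (∀ p ∈ Ω, ∀ r, 0 ≤ r → mP2 Ω Y p r ≤ s * FY r) →
    (∀ c ∈ C, ∀ r, 0 ≤ r → mG2 C τ κ c r ≤ F r) →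
    0 < θ → θ ≤ 1 / 10 → 0 < r₀ → r₀ ≤ 1 → 200 * δ ≤ r₀ * θ ^ 8 →
    FY (200 * δ) ≤ K / D → FY r₀ ≤ 1 / K ^ C₃ → F θ ≤ 1 / K ^ C₃ →
    (∀ w, θ ≤ w → w ≤ 1 → FY (6 * w) * (F θ * F (2 * θ ^ 8 / w)) ≤ 1 / (K ^ C₃ * D)) →
    θ ^ 6 ≤ 1 / (K ^ C₃ * D) → False

end Crest.Agent.R51
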